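import Mathlib
import Vale.Agent.P204.Core.Pull
import Vale.Agent.P204.General.Closed.Forms
import Vale.Agent.P204.General.Basic.Orient

/-!
# P204 on a closed four-manifold: gluing forms given in the charts
-/

open Matrix Filter
open scoped ContDiff Topology

namespace Vale.Agent.P204.General

open Vale.Agent.P204.Torus Vale.Agent.P204.Core

variable {N K : ℕ} (A : Atlas N K)

/-- Chart families of one-forms which agree on overlaps. -/
def Compat1 (β : Fin K → Pt → Pt) : Prop := ∀ c d, ∀ p ∈ box, A.psi d p ∈ A.psi c '' box →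
  β d p = (A.L c * A.dmat d p)ᵀ *ᵥ β c (A.trans c d p)

/-- Chart families of two-forms which agree on overlaps. -/
def Compat2 (f : Fin K → Pt → M4) : Prop := ∀ c d, ∀ p ∈ box, A.psi d p ∈ A.psi c '' box →
  f d p = (A.L c * A.dmat d p)ᵀ * f c (A.trans c d p) * (A.L c * A.dmat d p)

/-- The one-form glued from a chart family. -/
noncomputable def Atlas.glue1 (β : Fin K → Pt → Pt) (x : Amb N) : Amb N :=
  ∑ c, A.chi c x • ((A.L c)ᵀ *ᵥ β c (A.phi c x))

/-- The two-form glued from a chart family. -/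
noncomputable def Atlas.glue2 (f : Fin K → Pt → M4) (x : Amb N) : MN N :=
  ∑ c, A.chi c x • A.push c (f c) x

theorem glue2_skew {f : Fin K → Pt → M4} (hf : ∀ c q, (f c q)ᵀ = -f c q) (x : Amb N) :
    (A.glue2 f x)ᵀ = -A.glue2 f x := by
  simp only [Atlas.glue2, Atlas.push, transpose_sum, transpose_smul, transpose_mul,
    transpose_transpose, hf, Matrix.mul_neg, Matrix.neg_mul, smul_neg, Finset.sum_neg_distrib,
    Matrix.mul_assoc]

/-- A glued two-form reads as the family in each chart. -/
theorem pullAt_glue2 {f : Fin K → Pt → M4} (hf : Compat2 A f) {d : Fin K} {p : Pt} (hp : p ∈ box) :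
    A.pullAt d (A.glue2 f (A.psi d p)) p = f d p := by
  have hx := A.psi_mem d p hp
  have e : ∀ c ∈ (Finset.univ : Finset (Fin K)),
      A.chi c (A.psi d p) • A.pullAt d (A.push c (f c) (A.psi d p)) p
        = A.chi c (A.psi d p) • f d p := fun c _ => by
    rcases eq_or_ne (A.chi c (A.psi d p)) 0 with h | h
    · rw [h, zero_smul, zero_smul]
    · rw [hf c d p hp (A.supp_box hx h)]
      simp only [Atlas.pullAt, Atlas.push, Atlas.trans, transpose_mul, Matrix.mul_assoc]
  simp only [Atlas.pullAt, Atlas.glue2, Matrix.mul_sum, Matrix.sum_mul, Matrix.mul_smul,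
    Matrix.smul_mul] at e ⊢
  rw [Finset.sum_congr rfl e, ← Finset.sum_smul, A.chi_sum _ hx, one_smul]

/-- A glued one-form reads as the family in each chart. -/
theorem pullOne_glue1 {β : Fin K → Pt → Pt} (hβ : Compat1 A β) {d : Fin K} {p : Pt} (hp : p ∈ box) :
    A.pullOne d (A.glue1 β) p = β d p := by
  have hx := A.psi_mem d p hp
  have e : ∀ c ∈ (Finset.univ : Finset (Fin K)),
      A.chi c (A.psi d p) • ((A.dmat d p)ᵀ *ᵥ ((A.L c)ᵀ *ᵥ β c (A.phi c (A.psi d p))))
        = A.chi c (A.psi d p) • β d p := fun c _ => by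
    rcases eq_or_ne (A.chi c (A.psi d p)) 0 with h | h
    · rw [h, zero_smul, zero_smul]
    · rw [hβ c d p hp (A.supp_box hx h), transpose_mul, ← mulVec_mulVec]
      rfl
  simp only [Atlas.pullOne, Atlas.glue1, mulVec_sum, mulVec_smul]
  rw [Finset.sum_congr rfl e, ← Finset.sum_smul, A.chi_sum _ hx, one_smul]

theorem trans_contDiff (c d : Fin K) : ContDiff ℝ ∞ (A.trans c d) :=
  ((Matrix.mulVecLin (A.L c)).toContinuousLinearMap.contDiff.comp
    ((A.psi_smooth d).sub contDiff_const) : _)

theorem fderiv_trans_apply (c d : Fin K) (p v : Pt) :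
    fderiv ℝ (A.trans c d) p v = (A.L c * A.dmat d p) *ᵥ v := by
  have h : HasFDerivAt (A.trans c d)
      ((Matrix.mulVecLin (A.L c)).toContinuousLinearMap.comp (fderiv ℝ (A.psi d) p)) p :=
    ((Matrix.mulVecLin (A.L c)).toContinuousLinearMap.hasFDerivAt).comp p
      ((A.psi_diff d p).hasFDerivAt.sub_const (A.o c))
  rw [h.fderiv, ← mulVec_mulVec, A.dmat_mulVec]
  rfl

theorem trans_mem {c d : Fin K} {p : Pt} (hc : A.psi d p ∈ A.psi c '' box) :
    A.trans c d p ∈ box := A.phi_mem c hc

theorem psi_trans {c d : Fin K} {p : Pt} (hc : A.psi d p ∈ A.psi c '' box) :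
    A.psi c (A.trans c d p) = A.psi d p := A.psi_phi c hc

/-- The differential of a function read in another chart. -/
theorem fderiv_change {G : Type*} [NormedAddCommGroup G] [NormedSpace ℝ G] {f : Amb N → G}
    {c d : Fin K} {p : Pt} (hp : p ∈ box) (hc : A.psi d p ∈ A.psi c '' box)
    (hf : DifferentiableAt ℝ (fun q => f (A.psi c q)) (A.trans c d p)) (v : Pt) :
    fderiv ℝ (fun q => f (A.psi d q)) p v
      = fderiv ℝ (fun q => f (A.psi c q)) (A.trans c d p) ((A.L c * A.dmat d p) *ᵥ v) := by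
  have h := (hf.hasFDerivAt.comp p
      ((trans_contDiff A c d).differentiable (by norm_num) p).hasFDerivAt).congr_of_eventuallyEq
    ((A.psi_trans_eventually c d hp hc).mono fun q hq =>
      (congrArg f (A.psi_phi c hq.2)).symm : (fun q => f (A.psi d q)) =ᶠ[𝓝 p] _)
  rw [h.fderiv, ContinuousLinearMap.comp_apply, fderiv_trans_apply]

/-- Exterior derivatives of a compatible family agree on overlaps. -/
theorem compat2_dOne {β : Fin K → Pt → Pt} (hβ : Compat1 A β)
    (hs : ∀ c k, ContDiffOn ℝ ∞ (fun q => β c q k) box) :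
    Compat2 A fun c q => dOne (β c) q := fun c d p hp hc => by
  have hT := trans_mem A hc
  have hd : ∀ k, DifferentiableAt ℝ (fun q => β c q k) (A.trans c d p) := fun k =>
    ((hs c k).differentiableOn (by norm_num)).differentiableAt (isOpen_box.mem_nhds hT)
  have he : ∀ k, (fun q => β d q k) =ᶠ[𝓝 p]
      fun q => β c (A.trans c d q) ⬝ᵥ fderiv ℝ (A.trans c d) q (Pi.single k 1) := fun k =>
    (A.psi_trans_eventually c d hp hc).mono fun q hq => by
      show β d q k = β c (A.trans c d q) ⬝ᵥ fderiv ℝ (A.trans c d) q (Pi.single k 1)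
      rw [hβ c d q hq.1 hq.2, fderiv_trans_apply]
      simp [mulVec, dotProduct, mul_comm, Pi.single_apply]
  ext i k
  have h := dOne_pullback ((trans_contDiff A c d).contDiffAt (x := p)) hd i k
  simp only [fderiv_trans_apply] at h
  have h1 : dOne (β d) p i k
      = dOne (fun q j => β c (A.trans c d q) ⬝ᵥ fderiv ℝ (A.trans c d) q (Pi.single j 1)) p i k := by
    simp only [dOne, Matrix.of_apply, pd, (he _).fderiv_eq]
  simp only [fderiv_trans_apply] at h1
  show dOne (β d) p i k
    = ((A.L c * A.dmat d p)ᵀ * dOne (β c) (A.trans c d p) * (A.L c * A.dmat d p)) i k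
  rw [h1, h]
  generalize A.L c * A.dmat d p = T
  generalize dOne (β c) (A.trans c d p) = D
  fin_cases i <;> fin_cases k <;>
    simp [mulVec, dotProduct, Matrix.mul_apply, Pi.single_apply, Fin.sum_univ_four] <;> ring

theorem dOne_skew (b : Pt → Pt) (p : Pt) : (dOne b p)ᵀ = -dOne b p := by
  ext i k
  simp only [dOne, transpose_apply, Matrix.neg_apply, Matrix.of_apply]
  ring

theorem isOneX_glue1 {β : Fin K → Pt → Pt} (hβ : Compat1 A β)
    (hs : ∀ c k, ContDiffOn ℝ ∞ (fun q => β c q k) box) : IsOneX A (A.glue1 β) :=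
  fun c k => (hs c k).congr fun p hp => by
    show A.pullOne c (A.glue1 β) p k = _
    rw [pullOne_glue1 A hβ hp]

theorem isDOne_glue {β : Fin K → Pt → Pt} (hβ : Compat1 A β)
    (hs : ∀ c k, ContDiffOn ℝ ∞ (fun q => β c q k) box) :
    IsDOne A (A.glue2 fun c q => dOne (β c) q) (A.glue1 β) := fun c p hp => by
  rw [Atlas.pull, pullAt_glue2 A (compat2_dOne A hβ hs) hp]
  have he : ∀ k, (fun q => A.pullOne c (A.glue1 β) q k) =ᶠ[𝓝 p] fun q => β c q k := fun k =>
    eventually_of_mem (isOpen_box.mem_nhds hp) fun q hq => congrFun (pullOne_glue1 A hβ hq) k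
  ext i k
  simp only [dOne, Matrix.of_apply, pd, (he _).fderiv_eq]

theorem isClosedX_glue {β : Fin K → Pt → Pt} (hβ : Compat1 A β)
    (hs : ∀ c k, ContDiffOn ℝ ∞ (fun q => β c q k) box) :
    IsClosedX A (A.glue2 fun c q => dOne (β c) q) :=
  isClosedX_of_dOne A (glue2_skew A fun c q => dOne_skew _ q) (isOneX_glue1 A hβ hs)
    (isDOne_glue A hβ hs)

end Vale.Agent.P204.General
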