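import Mathlib
import Vale.Agent.P204.General.Test.Glue
import Vale.Agent.P204.General.Whitney.Smooth

/-!
# P204 on a closed four-manifold: the test potential and its `dJd` in charts
-/

open Matrix Filter
open scoped ContDiff Topology

namespace Vale.Agent.P204.General

open Vale.Agent.P204.Torus Vale.Agent.P204.Core

variable {N K : ℕ} (A : Atlas N K)

/-- The potential in a pair of charts. -/
noncomputable def Atlas.uP (J : Amb N → MN N) (s : ℝ) (c d : Fin K) : Pt × Pt → ℝ :=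
  logPot (A.qPair J c d) s

theorem pot_psi (J : Amb N → MN N) (s : ℝ) (c d : Fin K) (p q : Pt) :
    A.pot J s (A.psi c p) (A.psi d q) = A.uP J s c d (p, q) := rfl

/-- `-(du ∘ J)` in the second variable, chart by chart. -/
noncomputable def Atlas.betaF (J : Amb N → MN N) (s : ℝ) (x : Amb N) (c : Fin K)
    (q : Pt) (k : Fin 4) : ℝ :=
  -(fderiv ℝ (fun t : Pt => A.pot J s x (A.psi c t)) q (A.jc J c q *ᵥ Pi.single k 1))

/-- `dJdu` in the second variable, chart by chart. -/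
noncomputable def Atlas.ddF (J : Amb N → MN N) (s : ℝ) (x : Amb N) (c : Fin K) (q : Pt) : M4 :=
  dOne (A.betaF J s x c) q

theorem ddPot_eq (J : Amb N → MN N) (s : ℝ) (x : Amb N) :
    A.ddPot J s x = A.glue2 (A.ddF J s x) := by
  funext y
  refine Finset.sum_congr rfl fun c _ => congrArg (A.chi c y • ·) ?_
  simp only [Atlas.push, Atlas.ddF]
  congr 2
  ext i k
  simp only [Matrix.neg_apply, dOne, Matrix.of_apply, pd, Atlas.betaF, fderiv_fun_neg,
    _root_.neg_apply]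
  ring

theorem ddPot_skew (J : Amb N → MN N) (s : ℝ) (x y : Amb N) :
    (A.ddPot J s x y)ᵀ = -A.ddPot J s x y := by
  rw [ddPot_eq]
  exact glue2_skew A (fun _ q => dOne_skew _ q) y

theorem lin_mulVec (l : Pt →L[ℝ] ℝ) (M : M4) (v : Pt) :
    (fun a => l (M *ᵥ Pi.single a 1)) ⬝ᵥ v = l (M *ᵥ v) := by
  have hv : v = ∑ i, v i • Pi.single (M := fun _ => ℝ) i 1 := by
    funext k; simp [Finset.sum_apply, Pi.single_apply]
  conv_rhs => rw [hv, mulVec_sum, map_sum]
  simp only [mulVec_smul, map_smul, smul_eq_mul, dotProduct]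
  exact Finset.sum_congr rfl fun i _ => mul_comm _ _

theorem jVec_snd (J₁ J₂ : Pt → M4) (b : Pt) (w : Pt × Pt) :
    jVec J₁ J₂ (0, b) w = (0, J₂ w.2 *ᵥ b) := by
  simp [jVec]

namespace Atlas

variable {A}
variable {J : Amb N → MN N}

theorem qs_ne (hJ : IsACS A J) {s : ℝ} (hs : s ≠ 0) {x y : Amb N} (hx : x ∈ A.X) (hy : y ∈ A.X) :
    A.q0 J x y + s ^ 2 ≠ 0 :=
  ne_of_gt (add_pos_of_nonneg_of_pos (q0_nonneg hJ hx hy) (by positivity))

variable (hJ : IsACS A J)
include hJ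

theorem smoothMat_jc (c : Fin K) {p : Pt} (hp : p ∈ box) : SmoothMat (A.jc J c) p := fun i k =>
  (hJ.smooth c i k).contDiffAt (isOpen_box.mem_nhds hp)

theorem qPair_at (c d : Fin K) {p q : Pt} (hp : p ∈ box) (hq : q ∈ box) :
    ContDiffAt ℝ ∞ (A.qPair J c d) (p, q) :=
  (qPair_smooth hJ c d).contDiffAt ((isOpen_box.prod isOpen_box).mem_nhds ⟨hp, hq⟩)

variable {s : ℝ}

theorem uP_at (c d : Fin K) {p q : Pt} (hp : p ∈ box) (hq : q ∈ box)
    (h : A.qPair J c d (p, q) + s ^ 2 ≠ 0) : ContDiffAt ℝ ∞ (A.uP J s c d) (p, q) :=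
  smooth_logPot (qPair_at hJ c d hp hq) h

theorem uP_at' (hs : s ≠ 0) (c d : Fin K) {p q : Pt} (hp : p ∈ box) (hq : q ∈ box) :
    ContDiffAt ℝ ∞ (A.uP J s c d) (p, q) :=
  uP_at hJ c d hp hq (qs_ne hJ hs (A.psi_mem c p hp) (A.psi_mem d q hq))

/-- In a pair of charts, `betaF` is `-dc`. -/
theorem betaF_eventually (c d : Fin K) {p q : Pt} (hp : p ∈ box) (hq : q ∈ box)
    (h : A.qPair J c d (p, q) + s ^ 2 ≠ 0) (k : Fin 4) :
    (fun t => A.betaF J s (A.psi c p) d t k)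
      =ᶠ[𝓝 q] fun t => -dc (A.jc J c) (A.jc J d) (A.uP J s c d) (0, Pi.single k 1) (p, t) := by
  have hd : ∀ᶠ w in 𝓝 (p, q), DifferentiableAt ℝ (A.uP J s c d) w :=
    (((uP_at hJ c d hp hq h).of_le (m := 1) (by norm_num)).eventually (by norm_num)).mono
      fun w hw => hw.differentiableAt (by norm_num)
  have hd' : ∀ᶠ t in 𝓝 q, DifferentiableAt ℝ (A.uP J s c d) (p, t) :=
    (continuous_const.prodMk continuous_id).continuousAt.eventually hd
  filter_upwards [hd'] with t ht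
  show -(fderiv ℝ (fun t' => A.uP J s c d (p, t')) t (A.jc J d t *ᵥ Pi.single k 1)) = _
  rw [fderiv_right ht, dc, jVec_snd]

/-- In a pair of charts, `ddF` is `ddc`. -/
theorem ddF_eq (c d : Fin K) {p q : Pt} (hp : p ∈ box) (hq : q ∈ box)
    (h : A.qPair J c d (p, q) + s ^ 2 ≠ 0) (i k : Fin 4) :
    A.ddF J s (A.psi c p) d q i k = ddc (A.jc J c) (A.jc J d) (A.uP J s c d)
      (0, Pi.single i 1) (0, Pi.single k 1) (p, q) := by
  have hd := fun V => ((smooth_dc (uP_at hJ c d hp hq h) (smoothMat_jc hJ c hp) (smoothMat_jc hJ d hq)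
    V).differentiableAt (by norm_num))
  simp only [Atlas.ddF, dOne, Matrix.of_apply, pd,
    (betaF_eventually hJ c d hp hq h _).fderiv_eq, fderiv_fun_neg, _root_.neg_apply,
    fderiv_right (hd _), ddc]
  ring

theorem betaF_smooth (hs : s ≠ 0) {x : Amb N} (hx : x ∈ A.X) (d : Fin K) (k : Fin 4) :
    ContDiffOn ℝ ∞ (fun q => A.betaF J s x d q k) box := by
  obtain ⟨c, -, p, hp, rfl⟩ := A.exists_chart hx
  have hp' := closedBall_subset_box hp
  intro q hq
  have h := qs_ne hJ hs (A.psi_mem c p hp') (A.psi_mem d q hq)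
  refine ContDiffAt.contDiffWithinAt (ContDiffAt.congr_of_eventuallyEq ?_
    (betaF_eventually hJ c d hp' hq h k))
  exact ((smooth_dc (uP_at' hJ hs c d hp' hq) (smoothMat_jc hJ c hp') (smoothMat_jc hJ d hq) _).comp q
    (contDiffAt_const.prodMk contDiffAt_id)).neg

theorem betaF_compat (hs : s ≠ 0) {x : Amb N} (hx : x ∈ A.X) : Compat1 A (A.betaF J s x) :=
  fun c d p hp hc => by
  obtain ⟨c₀, -, p₀, hp₀, rfl⟩ := A.exists_chart hx
  have hp₀' := closedBall_subset_box hp₀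
  have hT := trans_mem A hc
  have hf : DifferentiableAt ℝ (fun q => A.pot J s (A.psi c₀ p₀) (A.psi c q)) (A.trans c d p) :=
    ((uP_at' hJ hs c₀ c hp₀' hT).differentiableAt (by norm_num)).comp (A.trans c d p)
      ((differentiableAt_const p₀).prodMk differentiableAt_id)
  funext k
  set T := A.L c * A.dmat d p with hTdef
  show -_ = (Tᵀ *ᵥ A.betaF J s (A.psi c₀ p₀) c (A.trans c d p)) k
  rw [fderiv_change A hp hc hf, ← hTdef, mulVec_mulVec,
    show T * A.jc J d p = A.jc J c (A.trans c d p) * T from jc_trans A hJ c d hp hc, ← mulVec_mulVec,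
    ← lin_mulVec]
  simp only [Atlas.betaF, mulVec, dotProduct, transpose_apply, mul_neg, neg_mul,
    ← Finset.sum_neg_distrib, Pi.single_apply, mul_ite, mul_one, mul_zero, Finset.sum_ite_eq',
    Finset.mem_univ, if_true]
  exact Finset.sum_congr rfl fun a _ => by ring

theorem ddF_compat (hs : s ≠ 0) {x : Amb N} (hx : x ∈ A.X) : Compat2 A (A.ddF J s x) :=
  compat2_dOne A (betaF_compat hJ hs hx) (betaF_smooth hJ hs hx)

theorem ddPot_closed (hs : s ≠ 0) {x : Amb N} (hx : x ∈ A.X) : IsClosedX A (A.ddPot J s x) := by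
  rw [ddPot_eq]
  exact isClosedX_glue A (betaF_compat hJ hs hx) (betaF_smooth hJ hs hx)

theorem ddPot_exact (hs : s ≠ 0) {x : Amb N} (hx : x ∈ A.X) :
    ∃ b, IsOneX A b ∧ IsDOne A (A.ddPot J s x) b := by
  refine ⟨A.glue1 (A.betaF J s x), isOneX_glue1 A (betaF_compat hJ hs hx) (betaF_smooth hJ hs hx), ?_⟩
  rw [ddPot_eq]
  exact isDOne_glue A (betaF_compat hJ hs hx) (betaF_smooth hJ hs hx)

/-- The test form in a chart. -/
theorem pullAt_ddPot (hs : s ≠ 0) (c d : Fin K) {p q : Pt} (hp : p ∈ box) (hq : q ∈ box)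
    (i k : Fin 4) :
    A.pullAt d (A.ddPot J s (A.psi c p) (A.psi d q)) q i k
      = ddc (A.jc J c) (A.jc J d) (A.uP J s c d) (0, Pi.single i 1) (0, Pi.single k 1) (p, q) := by
  rw [ddPot_eq, pullAt_glue2 A (ddF_compat hJ hs (A.psi_mem c p hp)) hq,
    ddF_eq hJ c d hp hq (qs_ne hJ hs (A.psi_mem c p hp) (A.psi_mem d q hq))]

/-- The test form in a chart, from the data of the pair. -/
theorem pullAt_ddPot_dd (hs : s ≠ 0) (c d : Fin K) {p q : Pt} (hp : p ∈ box) (hq : q ∈ box)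
    (Kj : Jet) (hj : Kj.j = A.jc J d q) (hjd : ∀ v, Kj.jd v = derivMat (A.jc J d) q v) (i k : Fin 4) :
    A.pullAt d (A.ddPot J s (A.psi c p) (A.psi d q)) q i k
      = (pairOf Kj (A.jc J c) (A.qPair J c d) s (p, q)).dd (0, Pi.single i 1) (0, Pi.single k 1) := by
  rw [pullAt_ddPot hJ hs c d hp hq]
  exact ddc_logPot Kj (qPair_at hJ c d hp hq) (smoothMat_jc hJ c hp) (smoothMat_jc hJ d hq) hj hjd
    (qs_ne hJ hs (A.psi_mem c p hp) (A.psi_mem d q hq)) _ _

end Atlas

end Vale.Agent.P204.General
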