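import Mathlib
import Vale.Agent.P204.General.Test.Pot
import Vale.Agent.P204.General.Forms

/-!
# P204 on a closed four-manifold: the exact part of the derivative of the squared test form

`restM` is the derivative of `pot * ddPot` in the first variable minus the exact form `restD`; in
a pair of charts it is `du ∧ dJdu`.
-/

open Matrix Filter
open scoped ContDiff Topology

namespace Vale.Agent.P204.General

open Vale.Agent.P204.Torus Vale.Agent.P204.Core

variable {N K : ℕ} (A : Atlas N K)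

theorem ddc_congr {J₁ J₂ : Pt → M4} {f g : Pt × Pt → ℝ} {z : Pt × Pt} (h : f =ᶠ[𝓝 z] g)
    (U V : Pt × Pt) : ddc J₁ J₂ f U V z = ddc J₁ J₂ g U V z := by
  have e : ∀ X, dc J₁ J₂ f X =ᶠ[𝓝 z] dc J₁ J₂ g X := fun X => (h.fderiv (𝕜 := ℝ)).mono fun w hw => by
    simp only [dc, hw]
  rw [ddc, ddc, (e V).fderiv_eq, (e U).fderiv_eq]

theorem ddc_snd_sum {J₁ J₂ : Pt → M4} {f : Pt × Pt → ℝ} {z : Pt × Pt} (hf : ContDiffAt ℝ ∞ f z)
    (h₁ : SmoothMat J₁ z.1) (h₂ : SmoothMat J₂ z.2) (U : Pt × Pt) (w : Pt) :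
    ddc J₁ J₂ f U (0, w) z = ∑ a, w a * ddc J₁ J₂ f U (0, Pi.single a 1) z := by
  have hB : DifferentiableAt ℝ (dcL J₁ J₂ f) z := differentiableAt_clm fun v =>
    ((smooth_dc hf h₁ h₂ v).differentiableAt (by norm_num))
  have e : ∀ V, ddc J₁ J₂ f U V z
      = (-(fderiv ℝ (dcL J₁ J₂ f) z U - (fderiv ℝ (dcL J₁ J₂ f) z).flip U)) V := fun V => by
    simp only [ddc, _root_.neg_apply, _root_.sub_apply, ContinuousLinearMap.flip_apply]
    rw [← fderiv_apply_const hB, ← fderiv_apply_const hB]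
    rfl
  simp only [e]
  generalize (-(fderiv ℝ (dcL J₁ J₂ f) z U - (fderiv ℝ (dcL J₁ J₂ f) z).flip U)) = l
  have hw : ((0, w) : Pt × Pt) = ∑ a, w a • ((0, Pi.single a 1) : Pt × Pt) := by
    refine Prod.ext ?_ ?_
    · simp [Prod.fst_sum]
    · funext k; simp [Prod.snd_sum, Finset.sum_apply, Pi.single_apply]
  rw [hw, map_sum]
  simp only [map_smul, smul_eq_mul]

/-- The one-form `u · dJdu(v, ·)`, chart by chart. -/
noncomputable def Atlas.restF (J : Amb N → MN N) (s : ℝ) (c₀ : Fin K) (p₀ v : Pt) (d : Fin K)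
    (q : Pt) (k : Fin 4) : ℝ :=
  A.uP J s c₀ d (p₀, q)
    * ddc (A.jc J c₀) (A.jc J d) (A.uP J s c₀ d) (v, 0) (0, Pi.single k 1) (p₀, q)

/-- The one-form `E`. -/
noncomputable def Atlas.restE (J : Amb N → MN N) (s : ℝ) (c₀ : Fin K) (p₀ v : Pt) : Amb N → Amb N :=
  A.glue1 (A.restF J s c₀ p₀ v)

/-- Its exterior derivative `D`. -/
noncomputable def Atlas.restD (J : Amb N → MN N) (s : ℝ) (c₀ : Fin K) (p₀ v : Pt) :
    Amb N → MN N :=
  A.glue2 fun d q => dOne (A.restF J s c₀ p₀ v d) q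

/-- The derivative of `pot * ddPot` in the first variable, minus `D`. -/
noncomputable def Atlas.restM (J : Amb N → MN N) (s : ℝ) (c₀ : Fin K) (p₀ v : Pt) (z : Amb N) :
    MN N :=
  (Matrix.of fun i k => fderiv ℝ
    (fun t => A.pot J s (A.psi c₀ t) z * A.ddPot J s (A.psi c₀ t) z i k) p₀ v)
    - A.restD J s c₀ p₀ v z

namespace Atlas

variable {A}
variable {J : Amb N → MN N} (hJ : IsACS A J) {s : ℝ}
include hJ

/-- `dJdu` in another pair of charts. -/
theorem ddc_uP_trans (hs : s ≠ 0) (c c' d d' : Fin K) {p q : Pt} (hp : p ∈ box) (hq : q ∈ box)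
    (hcp : A.psi c' p ∈ A.psi c '' box) (hdq : A.psi d' q ∈ A.psi d '' box) (U V : Pt × Pt) :
    ddc (A.jc J c') (A.jc J d') (A.uP J s c' d') U V (p, q)
      = ddc (A.jc J c) (A.jc J d) (A.uP J s c d)
        ((A.L c * A.dmat c' p) *ᵥ U.1, (A.L d * A.dmat d' q) *ᵥ U.2)
        ((A.L c * A.dmat c' p) *ᵥ V.1, (A.L d * A.dmat d' q) *ᵥ V.2)
        (A.trans c c' p, A.trans d d' q) := by
  let Φ : Pt × Pt → Pt × Pt := fun w => (A.trans c c' w.1, A.trans d d' w.2)
  have hΦd : ∀ w V, fderiv ℝ Φ w V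
      = ((A.L c * A.dmat c' w.1) *ᵥ V.1, (A.L d * A.dmat d' w.2) *ᵥ V.2) := fun w V => by
    have h1 := ((trans_contDiff A c c').differentiable (by norm_num) w.1).hasFDerivAt.comp w
      (hasFDerivAt_fst (p := w))
    have h2 := ((trans_contDiff A d d').differentiable (by norm_num) w.2).hasFDerivAt.comp w
      (hasFDerivAt_snd (p := w))
    have h : HasFDerivAt Φ _ w := h1.prodMk h2
    rw [h.fderiv]
    exact Prod.ext (fderiv_trans_apply A c c' w.1 V.1) (fderiv_trans_apply A d d' w.2 V.2)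
  have hev : ∀ᶠ w : Pt × Pt in 𝓝 (p, q), (w.1 ∈ box ∧ A.psi c' w.1 ∈ A.psi c '' box)
      ∧ w.2 ∈ box ∧ A.psi d' w.2 ∈ A.psi d '' box :=
    ((continuous_fst.tendsto (p, q)).eventually (A.psi_trans_eventually c c' hp hcp)).and
      ((continuous_snd.tendsto (p, q)).eventually (A.psi_trans_eventually d d' hq hdq))
  have hu : A.uP J s c' d' =ᶠ[𝓝 (p, q)] fun w => A.uP J s c d (Φ w) := hev.mono fun w hw => by
    show A.pot J s (A.psi c' w.1) (A.psi d' w.2) = A.pot J s _ _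
    rw [psi_trans A hw.1.2, psi_trans A hw.2.2]
  rw [ddc_congr hu, ddc_pullback (Φ := Φ) (J₁ := A.jc J c) (J₂ := A.jc J d)
    (((trans_contDiff A c c').comp contDiff_fst).prodMk
      ((trans_contDiff A d d').comp contDiff_snd)).contDiffAt
    (uP_at' hJ hs c d (trans_mem A hcp) (trans_mem A hdq))
    (smoothMat_jc hJ c (trans_mem A hcp)) (smoothMat_jc hJ d (trans_mem A hdq))
    (hev.mono fun w hw W => by
      rw [hΦd, hΦd]
      simp only [jVec, Φ, mulVec_mulVec, jc_trans A hJ c c' hw.1.1 hw.1.2,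
        jc_trans A hJ d d' hw.2.1 hw.2.2]), hΦd, hΦd]

omit hJ in
theorem trans_self (c : Fin K) {p : Pt} (hp : p ∈ box) : A.trans c c p = p := A.phi_psi c hp

/-- The family does not depend on the chart of the first point. -/
theorem restF_trans (hs : s ≠ 0) (c c₀ d : Fin K) {p₀ q : Pt} (hp : p₀ ∈ box) (hq : q ∈ box)
    (hc : A.psi c₀ p₀ ∈ A.psi c '' box) (v : Pt) (k : Fin 4) :
    A.restF J s c₀ p₀ v d q k
      = A.restF J s c (A.trans c c₀ p₀) ((A.L c * A.dmat c₀ p₀) *ᵥ v) d q k := by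
  have h := ddc_uP_trans hJ hs c c₀ d d hp hq hc ⟨q, hq, rfl⟩ (v, 0) (0, Pi.single k 1)
  simp only [trans_self d hq, A.L_mul_dmat d hq, mulVec_zero, one_mulVec] at h
  rw [Atlas.restF, Atlas.restF, h]
  congr 1
  show A.pot J s _ _ = A.pot J s _ _
  rw [psi_trans A hc]

theorem restF_compat (hs : s ≠ 0) (c₀ : Fin K) {p₀ : Pt} (hp : p₀ ∈ box) (v : Pt) :
    Compat1 A (A.restF J s c₀ p₀ v) := fun c d q hq hc => by
  funext k
  have h := ddc_uP_trans hJ hs c₀ c₀ c d hp hq ⟨p₀, hp, rfl⟩ hc (v, 0) (0, Pi.single k 1)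
  simp only [trans_self c₀ hp, A.L_mul_dmat c₀ hp, mulVec_zero, one_mulVec] at h
  have hu : A.uP J s c₀ d (p₀, q) = A.uP J s c₀ c (p₀, A.trans c d q) := by
    show A.pot J s _ _ = A.pot J s _ _
    rw [psi_trans A hc]
  rw [Atlas.restF, h, hu, ddc_snd_sum (uP_at' hJ hs c₀ c hp (trans_mem A hc))
    (smoothMat_jc hJ c₀ hp) (smoothMat_jc hJ c (trans_mem A hc))]
  simp only [mulVec, dotProduct, transpose_apply, Pi.single_apply, mul_ite, mul_one, mul_zero,
    Finset.sum_ite_eq', Finset.mem_univ, if_true, Finset.mul_sum, Atlas.restF]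
  exact Finset.sum_congr rfl fun a _ => by ring

theorem restF_smooth (hs : s ≠ 0) (c₀ : Fin K) {p₀ : Pt} (hp : p₀ ∈ box) (v : Pt) (d : Fin K)
    (k : Fin 4) : ContDiffOn ℝ ∞ (fun q => A.restF J s c₀ p₀ v d q k) box := fun q hq => by
  have hu := uP_at' hJ hs c₀ d hp hq
  exact (((hu.mul (smooth_ddc hu (smoothMat_jc hJ c₀ hp) (smoothMat_jc hJ d hq) (v, 0)
    (0, Pi.single k 1))).comp q (contDiffAt_const.prodMk contDiffAt_id))).contDiffWithinAt

theorem restE_isOneX (hs : s ≠ 0) (c₀ : Fin K) {p₀ : Pt} (hp : p₀ ∈ box) (v : Pt) :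
    IsOneX A (A.restE J s c₀ p₀ v) :=
  isOneX_glue1 A (restF_compat hJ hs c₀ hp v) (restF_smooth hJ hs c₀ hp v)

theorem restD_isTestX (hs : s ≠ 0) (c₀ : Fin K) {p₀ : Pt} (hp : p₀ ∈ box) (v : Pt) :
    IsTestX A (A.restD J s c₀ p₀ v) :=
  (isClosedX_glue A (restF_compat hJ hs c₀ hp v) (restF_smooth hJ hs c₀ hp v)).toIsTestX

theorem restD_isDOne (hs : s ≠ 0) (c₀ : Fin K) {p₀ : Pt} (hp : p₀ ∈ box) (v : Pt) :
    IsDOne A (A.restD J s c₀ p₀ v) (A.restE J s c₀ p₀ v) :=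
  isDOne_glue A (restF_compat hJ hs c₀ hp v) (restF_smooth hJ hs c₀ hp v)

/-- The test form is smooth in the first point. -/
theorem ddPot_left_smooth (hs : s ≠ 0) (c : Fin K) {p : Pt} (hp : p ∈ box) {z : Amb N}
    (hz : z ∈ A.X) (a b : Fin N) :
    ContDiffAt ℝ ∞ (fun t => A.ddPot J s (A.psi c t) z a b) p := by
  simp only [ddPot_eq, Atlas.glue2, Atlas.push, Matrix.sum_apply, Matrix.smul_apply, smul_eq_mul,
    Matrix.mul_apply, transpose_apply]
  refine ContDiffAt.sum fun e _ => ?_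
  rcases eq_or_ne (A.chi e z) 0 with h | h
  · simp only [h, zero_mul]; exact contDiffAt_const
  refine contDiffAt_const.mul (ContDiffAt.sum fun i _ => (ContDiffAt.sum fun k _ =>
    contDiffAt_const.mul ?_).mul contDiffAt_const)
  obtain ⟨q, hq, rfl⟩ := A.supp_box hz h
  rw [A.phi_psi e hq]
  refine ContDiffAt.congr_of_eventuallyEq ?_ (eventually_of_mem (isOpen_box.mem_nhds hp) fun t ht =>
    ddF_eq hJ c e ht hq (qs_ne hJ hs (A.psi_mem c t ht) (A.psi_mem e q hq)) k i)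
  have h1 := smooth_ddc (uP_at' hJ hs c e hp hq) (smoothMat_jc hJ c hp) (smoothMat_jc hJ e hq)
    (0, Pi.single k 1) (0, Pi.single i 1)
  exact ContDiffAt.comp (f := fun t => (t, q)) p h1 (contDiffAt_id.prodMk contDiffAt_const)

/-- In a pair of charts the remainder is `du ∧ dJdu`. -/
theorem pullAt_restM (hs : s ≠ 0) (c c₀ d : Fin K) {p₀ q : Pt} (hp₀ : p₀ ∈ box)
    (hc : A.psi c₀ p₀ ∈ A.psi c '' box) (hq : q ∈ box) (Kj : Jet) (hj : Kj.j = A.jc J d q)
    (hjd : ∀ w, Kj.jd w = derivMat (A.jc J d) q w) (v : Pt) (i k : Fin 4) :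
    A.pullAt d (A.restM J s c₀ p₀ v (A.psi d q)) q i k
      = (pairOf Kj (A.jc J c) (A.qPair J c d) s (A.trans c c₀ p₀, q)).dudd
        ((A.L c * A.dmat c₀ p₀) *ᵥ v, 0) (0, Pi.single i 1) (0, Pi.single k 1) := by
  set z := A.psi d q with hz
  set p := A.trans c c₀ p₀ with hpdef
  set v' := (A.L c * A.dmat c₀ p₀) *ᵥ v with hv'
  have hp : p ∈ box := trans_mem A hc
  have hzX : z ∈ A.X := A.psi_mem d q hq
  have hu := uP_at' hJ hs c d hp hq
  have hdd := fun U V => smooth_ddc hu (smoothMat_jc hJ c hp) (smoothMat_jc hJ d hq) U V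
  set F := fun w : Pt × Pt => A.uP J s c d w
    * ddc (A.jc J c) (A.jc J d) (A.uP J s c d) (0, Pi.single i 1) (0, Pi.single k 1) w with hF
  set g := fun x => A.pot J s x z * A.pullAt d (A.ddPot J s x z) q i k with hg
  have hFd : ∀ U V, DifferentiableAt ℝ (fun w => A.uP J s c d w
      * ddc (A.jc J c) (A.jc J d) (A.uP J s c d) U V w) (p, q) := fun U V =>
    (hu.mul (hdd U V)).differentiableAt (by norm_num)
  have hge : (fun t => g (A.psi c t)) =ᶠ[𝓝 p] fun t => F (t, q) :=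
    eventually_of_mem (isOpen_box.mem_nhds hp) fun t ht => by
      simp only [hg, hF, hz, pullAt_ddPot hJ hs c d ht hq]
      rfl
  have hgd : DifferentiableAt ℝ (fun t => g (A.psi c t)) p :=
    (DifferentiableAt.comp (g := F) (f := fun t => (t, q)) p (hFd _ _)
      (differentiableAt_id.prodMk (differentiableAt_const q))).congr_of_eventuallyEq hge
  have e1 : A.pullAt d (Matrix.of fun a b => fderiv ℝ
      (fun t => A.pot J s (A.psi c₀ t) z * A.ddPot J s (A.psi c₀ t) z a b) p₀ v) q i k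
      = fderiv ℝ F (p, q) (v', 0) := by
    have hd : ∀ a b, DifferentiableAt ℝ
        (fun t => A.pot J s (A.psi c₀ t) z * A.ddPot J s (A.psi c₀ t) z a b) p₀ := fun a b =>
      ((ContDiffAt.comp (g := A.uP J s c₀ d) (f := fun t => (t, q)) p₀ (uP_at' hJ hs c₀ d hp₀ hq)
        (contDiffAt_id.prodMk contDiffAt_const)).mul
        (ddPot_left_smooth hJ hs c₀ hp₀ hzX a b)).differentiableAt (by norm_num)
    have e : A.pullAt d (Matrix.of fun a b => fderiv ℝ
        (fun t => A.pot J s (A.psi c₀ t) z * A.ddPot J s (A.psi c₀ t) z a b) p₀ v) q i k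
        = fderiv ℝ (fun t => g (A.psi c₀ t)) p₀ v := by
      have h : HasFDerivAt (fun t => g (A.psi c₀ t)) (∑ b, A.dmat d q b k • ∑ a, A.dmat d q a i •
          fderiv ℝ (fun t => A.pot J s (A.psi c₀ t) z * A.ddPot J s (A.psi c₀ t) z a b) p₀) p₀ := by
        refine HasFDerivAt.congr_of_eventuallyEq (HasFDerivAt.fun_sum (u := Finset.univ) fun b _ =>
          (HasFDerivAt.fun_sum (u := Finset.univ) fun a _ =>
            (hd a b).hasFDerivAt.fun_const_smul (A.dmat d q a i)).fun_const_smul (A.dmat d q b k))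
          (Eventually.of_forall fun t => ?_)
        simp only [hg, pullAt_apply, smul_eq_mul, Finset.mul_sum, Finset.sum_mul]
        exact Finset.sum_congr rfl fun b _ => Finset.sum_congr rfl fun a _ => by ring
      rw [h.fderiv]
      simp only [pullAt_apply, _root_.sum_apply, _root_.smul_apply, smul_eq_mul, Matrix.of_apply]
      exact Finset.sum_congr rfl fun b _ => mul_comm _ _
    rw [e, fderiv_change A hp₀ hc hgd, ← hv', hge.fderiv_eq, fderiv_left (hFd _ _)]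
  have e2 : A.pullAt d (A.restD J s c₀ p₀ v z) q i k
      = fderiv ℝ (fun w => A.uP J s c d w
          * ddc (A.jc J c) (A.jc J d) (A.uP J s c d) (v', 0) (0, Pi.single k 1) w) (p, q) (0, Pi.single i 1)
        - fderiv ℝ (fun w => A.uP J s c d w
          * ddc (A.jc J c) (A.jc J d) (A.uP J s c d) (v', 0) (0, Pi.single i 1) w) (p, q) (0, Pi.single k 1) := by
    rw [Atlas.restD, hz, pullAt_glue2 A (compat2_dOne A (restF_compat hJ hs c₀ hp₀ v)
      (restF_smooth hJ hs c₀ hp₀ v)) hq]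
    have he : ∀ j, (fun t => A.restF J s c₀ p₀ v d t j) =ᶠ[𝓝 q] fun t => A.uP J s c d (p, t)
        * ddc (A.jc J c) (A.jc J d) (A.uP J s c d) (v', 0) (0, Pi.single j 1) (p, t) := fun j =>
      eventually_of_mem (isOpen_box.mem_nhds hq) fun t ht => restF_trans hJ hs c c₀ d hp₀ ht hc v j
    simp only [dOne, Matrix.of_apply, pd, (he _).fderiv_eq]
    rw [fderiv_right (hFd _ _), fderiv_right (hFd _ _)]
  have hsub : A.pullAt d (A.restM J s c₀ p₀ v z) q i k = fderiv ℝ F (p, q) (v', 0)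
      - A.pullAt d (A.restD J s c₀ p₀ v z) q i k := by
    rw [← e1]
    simp only [Atlas.restM, Atlas.pullAt, Matrix.mul_sub, Matrix.sub_mul, Matrix.sub_apply]
  rw [hsub, e2]
  exact wedge_logPot Kj (qPair_at hJ c d hp hq) (smoothMat_jc hJ c hp) (smoothMat_jc hJ d hq) hj hjd
    (qs_ne hJ hs (A.psi_mem c p hp) hzX) _ _ _

end Atlas

end Vale.Agent.P204.General
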