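import Mathlib
import Vale.Agent.P204.General.Test.Rest
import Vale.Agent.P204.General.Whitney.Expand
import Vale.Agent.P204.General.Stmts

/-!
# P204 on a closed four-manifold: regularity of the test potential
-/

open Matrix Filter
open scoped ContDiff Topology

namespace Vale.Agent.P204.General

open Vale.Agent.P204.Torus Vale.Agent.P204.Core

variable {N K : ℕ}

namespace Atlas

variable {A : Atlas N K} {J : Amb N → MN N}

theorem ddPot_apply (s : ℝ) (x y : Amb N) (a b : Fin N) :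
    A.ddPot J s x y a b
      = ∑ c, A.chi c y * ((A.L c)ᵀ * A.ddF J s x c (A.phi c y) * A.L c) a b := by
  rw [ddPot_eq]
  simp only [Atlas.glue2, Atlas.push, Matrix.sum_apply, Matrix.smul_apply, smul_eq_mul]

variable (A) in
/-- Membership in a chart image is open in the manifold. -/
theorem chart_image_nhds {c : Fin K} {x : A.X} (hx : (x : Amb N) ∈ A.psi c '' box) :
    ∀ᶠ y : A.X in 𝓝 x, (y : Amb N) ∈ A.psi c '' box := by
  obtain ⟨U, hU, hXU⟩ := A.open_image c
  have hxU : (x : Amb N) ∈ U := (hXU.symm ▸ hx : (x : Amb N) ∈ A.X ∩ U).2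
  filter_upwards [(continuous_subtype_val.tendsto x).eventually (hU.mem_nhds hxU)] with y hy
  exact hXU ▸ ⟨y.2, hy⟩

variable (hJ : IsACS A J) {s : ℝ}
include hJ

theorem continuous_pot (hs : s ≠ 0) :
    Continuous fun z : A.X × A.X => A.pot J s z.1 z.2 := by
  unfold Atlas.pot
  exact ((((q0_continuousOn hJ).comp_continuous
    ((continuous_subtype_val.comp continuous_fst).prodMk (continuous_subtype_val.comp continuous_snd))
    fun z => ⟨z.1.2, z.2.2⟩).add continuous_const).log fun z => qs_ne hJ hs z.1.2 z.2.2).div_const 2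

theorem continuous_ddPot (hs : s ≠ 0) (a b : Fin N) :
    Continuous fun z : A.X × A.X => A.ddPot J s z.1 z.2 a b := by
  simp only [ddPot_apply, Matrix.mul_apply, transpose_apply]
  refine continuous_finsetSum _ fun c _ => continuous_iff_continuousAt.2 fun z₀ => ?_
  have hy : Continuous fun z : A.X × A.X => (z.2 : Amb N) :=
    continuous_subtype_val.comp continuous_snd
  by_cases hc : (z₀.2 : Amb N) ∈ A.psi c '' Metric.closedBall 0 (1 / 2)
  · refine ((A.chi_cont c).comp hy).continuousAt.mul (tendsto_finsetSum _ fun i _ =>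
      (tendsto_finsetSum _ fun k _ => tendsto_const_nhds.mul ?_).mul tendsto_const_nhds)
    obtain ⟨c₀, -, h₀⟩ := A.exists_chart z₀.1.2
    have h₀' := A.mem_box_image h₀
    have hc' := A.mem_box_image hc
    have he : (fun z : A.X × A.X => A.ddF J s z.1 c (A.phi c z.2) k i) =ᶠ[𝓝 z₀] fun z =>
        ddc (A.jc J c₀) (A.jc J c) (A.uP J s c₀ c) (0, Pi.single k 1) (0, Pi.single i 1)
          (A.phi c₀ z.1, A.phi c z.2) := by
      filter_upwards [(continuous_fst.tendsto z₀).eventually (chart_image_nhds A h₀'),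
        (continuous_snd.tendsto z₀).eventually (chart_image_nhds A hc')] with z hz hz'
      have hp := A.phi_mem c₀ hz
      have hq := A.phi_mem c hz'
      conv_lhs => rw [← A.psi_phi c₀ hz]
      exact ddF_eq hJ c₀ c hp hq (qs_ne hJ hs (A.psi_mem _ _ hp) (A.psi_mem _ _ hq)) k i
    refine (ContinuousAt.congr_of_eventuallyEq ?_ he : ContinuousAt _ z₀)
    have hp := A.phi_mem c₀ h₀'
    have hq := A.phi_mem c hc'
    exact ContinuousAt.comp (f := fun z : A.X × A.X => (A.phi c₀ z.1, A.phi c z.2))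
      (smooth_ddc (uP_at' hJ hs c₀ c hp hq) (smoothMat_jc hJ c₀ hp) (smoothMat_jc hJ c hq) _ _).continuousAt
      (((A.phi_cont c₀).comp (continuous_subtype_val.comp continuous_fst)).prodMk
        ((A.phi_cont c).comp hy)).continuousAt
  · refine (continuousAt_const (y := (0 : ℝ))).congr_of_eventuallyEq ?_
    filter_upwards [(hy.tendsto z₀).eventually ((A.isClosed_half c).isOpen_compl.mem_nhds hc)]
      with z hz
    by_contra hne
    exact hz (A.chi_supp c _ z.2.2 (left_ne_zero_of_mul hne))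

theorem contDiffOn_uP (hs : s ≠ 0) (c d : Fin K) :
    ContDiffOn ℝ ∞ (fun z : Pt × Pt => A.pot J s (A.psi c z.1) (A.psi d z.2)) (box ×ˢ box) :=
  fun z hz => (uP_at' hJ hs c d hz.1 hz.2).contDiffWithinAt

theorem contDiffOn_pullAt_ddPot (hs : s ≠ 0) (c d : Fin K) (i k : Fin 4) :
    ContDiffOn ℝ ∞
      (fun z : Pt × Pt => A.pullAt d (A.ddPot J s (A.psi c z.1) (A.psi d z.2)) z.2 i k)
      (box ×ˢ box) := fun z hz => by
  refine ContDiffWithinAt.congr ?_ (fun w hw => pullAt_ddPot hJ hs c d hw.1 hw.2 i k)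
    (pullAt_ddPot hJ hs c d hz.1 hz.2 i k)
  exact (smooth_ddc (uP_at' hJ hs c d hz.1 hz.2) (smoothMat_jc hJ c hz.1) (smoothMat_jc hJ d hz.2)
    _ _).contDiffWithinAt

theorem tendsto_ddPot {x y : Amb N} (hx : x ∈ A.X) (hy : y ∈ A.X) (hne : x ≠ y) (a b : Fin N) :
    Tendsto (fun t => A.ddPot J t x y a b) (𝓝[>] 0) (𝓝 (A.ddPot J 0 x y a b)) := by
  refine tendsto_nhdsWithin_of_tendsto_nhds ?_
  simp only [ddPot_apply, Matrix.mul_apply, transpose_apply]
  refine tendsto_finsetSum _ fun c _ => ?_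
  rcases eq_or_ne (A.chi c y) 0 with h | h
  · simp [h]
  refine tendsto_const_nhds.mul (tendsto_finsetSum _ fun i _ =>
    (tendsto_finsetSum _ fun k _ => tendsto_const_nhds.mul ?_).mul tendsto_const_nhds)
  obtain ⟨c₀, -, p, hp, rfl⟩ := A.exists_chart hx
  obtain ⟨q, hq, rfl⟩ := A.supp_box hy h
  have hp' := closedBall_subset_box hp
  rw [A.phi_psi c hq]
  have hQ : ∀ t : ℝ, A.qPair J c₀ c (p, q) + t ^ 2 ≠ 0 := fun t =>
    ne_of_gt (add_pos_of_pos_of_nonneg (q0_pos hJ hx hy hne) (sq_nonneg t))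
  have e : ∀ t : ℝ, A.ddF J t (A.psi c₀ p) c q k i = (pairOf (jetAt hJ c hq) (A.jc J c₀)
      (A.qPair J c₀ c) t (p, q)).dd (0, Pi.single k 1) (0, Pi.single i 1) := fun t => by
    rw [ddF_eq hJ c₀ c hp' hq (hQ t)]
    exact ddc_logPot (jetAt hJ c hq) (qPair_at hJ c₀ c hp' hq) (smoothMat_jc hJ c₀ hp')
      (smoothMat_jc hJ c hq) (jetAt_j hJ c hq) (jetAt_jd hJ c hq) (hQ t) _ _
  simp only [e]
  refine Continuous.tendsto' ?_ 0 _ rfl
  simp only [PairData.dd, PairData.curl, PairData.dBeta, PairData.jt, pairOf]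
  refine Continuous.add (continuous_const.div ?_ fun t => mul_ne_zero two_ne_zero (hQ t))
    (continuous_const.div ?_ fun t => mul_ne_zero two_ne_zero (pow_ne_zero 2 (hQ t)))
  · exact continuous_const.mul (continuous_const.add (continuous_pow 2))
  · exact continuous_const.mul ((continuous_const.add (continuous_pow 2)).pow 2)

/-- The regularity clauses of `TestStmt`. -/
theorem testClauses (hs : s ≠ 0) :
    (∀ x ∈ A.X, IsClosedX A (A.ddPot J s x)) ∧
    (∀ x ∈ A.X, ∃ b, IsOneX A b ∧ IsDOne A (A.ddPot J s x) b) ∧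
    Continuous (fun z : A.X × A.X => A.pot J s z.1 z.2) ∧
    (∀ i k, Continuous fun z : A.X × A.X => A.ddPot J s z.1 z.2 i k) ∧
    (∀ c₁ c₂, ContDiffOn ℝ ∞ (fun z : Pt × Pt => A.pot J s (A.psi c₁ z.1) (A.psi c₂ z.2))
      (box ×ˢ box)) ∧
    (∀ c₁ c₂ i k, ContDiffOn ℝ ∞
      (fun z : Pt × Pt => A.pullAt c₂ (A.ddPot J s (A.psi c₁ z.1) (A.psi c₂ z.2)) z.2 i k)
      (box ×ˢ box)) ∧
    (∀ x ∈ A.X, ∀ y ∈ A.X, x ≠ y → ∀ i k,
      Tendsto (fun t => A.ddPot J t x y i k) (𝓝[>] 0) (𝓝 (A.ddPot J 0 x y i k))) :=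
  ⟨fun _ hx => ddPot_closed hJ hs hx, fun _ hx => ddPot_exact hJ hs hx, continuous_pot hJ hs,
    continuous_ddPot hJ hs, contDiffOn_uP hJ hs, contDiffOn_pullAt_ddPot hJ hs,
    fun _ hx _ hy hne => tendsto_ddPot hJ hx hy hne⟩

/-- The witnesses of the last clause of `TestStmt`. -/
theorem exists_rest (hs : s ≠ 0) (c₀ : Fin K) {p₀ : Pt} (hp : p₀ ∈ box) (v : Pt) {P : MN N → Amb N → Prop}
    (h : ∀ z ∈ A.X, P (A.restM J s c₀ p₀ v z) z) :
    ∃ (E : Amb N → Amb N) (D : Amb N → MN N), IsOneX A E ∧ IsTestX A D ∧ IsDOne A D E ∧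
      ∀ z ∈ A.X, P ((Matrix.of fun i k => fderiv ℝ
        (fun t => A.pot J s (A.psi c₀ t) z * A.ddPot J s (A.psi c₀ t) z i k) p₀ v) - D z) z :=
  ⟨A.restE J s c₀ p₀ v, A.restD J s c₀ p₀ v, restE_isOneX hJ hs c₀ hp v,
    restD_isTestX hJ hs c₀ hp v, restD_isDOne hJ hs c₀ hp v, h⟩

end Atlas

end Vale.Agent.P204.General
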