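import Mathlib
import Vale.Agent.P204.General.Whitney.Expand

/-!
# P204 on a closed four-manifold: the distance to a line, read in a chart, and chart geometry
-/

set_option maxSynthPendingDepth 3

open Matrix
open scoped ContDiff

namespace Vale.Agent.P204.General

open Vale.Agent.P204.Torus Vale.Agent.P204.Core

variable {N K : ℕ}

theorem offK_smul_left (P : Jet) (t : ℝ) (l v : Pt) : offK P (t • l) v = t ^ 2 * offK P l v := by
  simp only [offK, mulVec_smul, ev_smul_left, ev_smul_right]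
  ring

theorem offK_smul_right (P : Jet) (t : ℝ) (l v : Pt) : offK P l (t • v) = t ^ 2 * offK P l v := by
  simp only [offK, ev_smul_left, ev_smul_right]
  ring

theorem norm_le_one_of_dot {v : Amb N} (h : v ⬝ᵥ v = 1) : ‖v‖ ≤ 1 :=
  (pi_norm_le_iff_of_nonneg zero_le_one).2 fun a => by
    have h2 : v a * v a ≤ v ⬝ᵥ v :=
      Finset.single_le_sum (f := fun k => v k * v k) (fun k _ => mul_self_nonneg _) (Finset.mem_univ a)
    rw [h] at h2
    rw [Real.norm_eq_abs]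
    exact (sq_le_one_iff_abs_le_one (v a)).1 (by rw [sq]; exact h2)

theorem le_rsX (s : ℝ) (x y : Amb N) : ‖x - y‖ ≤ rsX s x y := by
  rw [rsX]
  exact (Real.le_sqrt (norm_nonneg _) (add_nonneg (sq_nonneg _) (sq_nonneg _))).2
    (le_add_of_nonneg_right (sq_nonneg _))

theorem rsX_pos {s : ℝ} (hs : 0 < s) (x y : Amb N) : 0 < rsX s x y :=
  Real.sqrt_pos.2 (add_pos_of_nonneg_of_pos (sq_nonneg _) (pow_pos hs 2))

theorem rsX_sq (s : ℝ) (x y : Amb N) : rsX s x y ^ 2 = ‖x - y‖ ^ 2 + s ^ 2 :=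
  Real.sq_sqrt (add_nonneg (sq_nonneg _) (sq_nonneg _))

namespace Atlas

variable (A : Atlas N K)

theorem exists_rs_le : ∃ D : ℝ, 1 ≤ D ∧
    ∀ x ∈ A.X, ∀ y ∈ A.X, ∀ s : ℝ, 0 ≤ s → s ≤ 1 → rsX s x y ≤ D := by
  obtain ⟨B, hB⟩ := A.compact.isBounded.exists_norm_le
  refine ⟨2 * |B| + 1, by linarith [abs_nonneg B], fun x hx y hy s hs hs1 => ?_⟩
  rw [rsX, Real.sqrt_le_iff]
  refine ⟨by linarith [abs_nonneg B], ?_⟩
  have hxy : ‖x - y‖ ≤ 2 * |B| :=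
    (norm_sub_le _ _).trans (by linarith [hB x hx, hB y hy, le_abs_self B])
  nlinarith [pow_le_pow_left₀ (norm_nonneg _) hxy 2, pow_le_pow_left₀ hs hs1 2, abs_nonneg B]

theorem exists_L_bound : ∃ Λ : ℝ, 1 ≤ Λ ∧ ∀ (c : Fin K) (v : Amb N), ‖A.L c *ᵥ v‖ ≤ Λ * ‖v‖ := by
  refine ⟨1 + ∑ c, ‖(Matrix.mulVecLin (A.L c)).toContinuousLinearMap‖,
    le_add_of_nonneg_right (Finset.sum_nonneg fun c _ => norm_nonneg _), fun c v => ?_⟩
  refine ((Matrix.mulVecLin (A.L c)).toContinuousLinearMap.le_opNorm v).trans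
    (mul_le_mul_of_nonneg_right ?_ (norm_nonneg v))
  exact (Finset.single_le_sum (f := fun c => ‖(Matrix.mulVecLin (A.L c)).toContinuousLinearMap‖)
    (fun c _ => norm_nonneg _) (Finset.mem_univ c)).trans (le_add_of_nonneg_left zero_le_one)

/-- Points outside a larger piece of a chart stay away from the smaller piece. -/
theorem exists_far : ∃ δ : ℝ, 0 < δ ∧ ∀ c, ∀ y ∈ A.psi c '' Metric.closedBall 0 (1 / 2),
    ∀ x ∈ A.X, x ∉ A.psi c '' Metric.closedBall 0 (3 / 4) → δ ≤ ‖x - y‖ := by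
  have h : ∀ c, ∃ δ : ℝ, 0 < δ ∧ ∀ y ∈ A.psi c '' Metric.closedBall 0 (1 / 2),
      ∀ x ∈ A.X, x ∉ A.psi c '' Metric.closedBall 0 (3 / 4) → δ ≤ ‖x - y‖ := fun c => by
    obtain ⟨U, hU, hXU⟩ := A.open_image c
    set V : Set (Amb N) := U ∩ A.phi c ⁻¹' Metric.ball 0 (3 / 4)
    have hV : IsOpen V := hU.inter (Metric.isOpen_ball.preimage (A.phi_cont c))
    have hdisj : Disjoint (A.psi c '' Metric.closedBall 0 (1 / 2)) (A.X ∩ Vᶜ) := by
      rw [Set.disjoint_left]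
      rintro z ⟨p, hp, rfl⟩ ⟨hz, hzV⟩
      have hb := closedBall_subset_box hp
      refine hzV ⟨(hXU.symm ▸ ⟨p, hb, rfl⟩ : A.psi c p ∈ A.X ∩ U).2, ?_⟩
      rw [Set.mem_preimage, A.phi_psi c hb]
      exact Metric.closedBall_subset_ball (by norm_num) hp
    obtain ⟨δ, hδ, hd⟩ := hdisj.exists_thickenings
      ((isCompact_closedBall _ _).image (A.psi_cont c)) (A.compact.isClosed.inter hV.isClosed_compl)
    refine ⟨δ, hδ, fun y hy x hx hxn => ?_⟩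
    by_contra hlt
    push Not at hlt
    refine Set.disjoint_left.1 hd (Metric.self_subset_thickening hδ _ hy) ?_
    refine Metric.mem_thickening_iff.2 ⟨x, ⟨hx, fun hxV => hxn ?_⟩, by rwa [dist_comm, dist_eq_norm]⟩
    have hxb : x ∈ A.psi c '' box := hXU ▸ ⟨hx, hxV.1⟩
    exact ⟨A.phi c x, Metric.ball_subset_closedBall hxV.2, A.psi_phi c hxb⟩
  choose δ hδ hfar using h
  have h1 : 0 < 1 + ∑ c, 1 / δ c :=
    add_pos_of_pos_of_nonneg one_pos (Finset.sum_nonneg fun c _ => (one_div_pos.2 (hδ c)).le)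
  refine ⟨1 / (1 + ∑ c, 1 / δ c), one_div_pos.2 h1, fun c y hy x hx hn => le_trans ?_ (hfar c y hy x hx hn)⟩
  rw [one_div_le h1 (hδ c)]
  linarith [Finset.single_le_sum (f := fun c => 1 / δ c) (fun c _ => (one_div_pos.2 (hδ c)).le)
    (Finset.mem_univ c)]

/-- The secant and the differential of a parametrisation at two points. -/
theorem exists_geom : ∃ C : ℝ, 0 ≤ C ∧ ∀ (c : Fin K), ∀ p ∈ Metric.closedBall (0 : Pt) (3 / 4),
    ∀ q ∈ Metric.closedBall (0 : Pt) (3 / 4),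
      ‖A.psi c p - A.psi c q - A.dmat c q *ᵥ (p - q)‖ ≤ C * ‖A.psi c p - A.psi c q‖ ^ 2 ∧
      ∀ v, ‖A.dmat c p *ᵥ v - A.dmat c q *ᵥ v‖ ≤ C * ‖A.psi c p - A.psi c q‖ * ‖v‖ := by
  have hsub : Metric.closedBall (0 : Pt) (3 / 4) ⊆ box := Metric.closedBall_subset_ball (by norm_num)
  obtain ⟨Λ, hΛ, hL⟩ := A.exists_L_bound
  have hΛ0 : 0 ≤ Λ := zero_le_one.trans hΛ
  choose C₁ hC₁ _h0 _h1 _h2 hT using fun c => Whitney.taylor2 (A.psi_smooth c).contDiffOn isOpen_box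
    (isCompact_closedBall (0 : Pt) (3 / 4)) (convex_closedBall _ _) hsub
  choose C₂ hC₂ _k0 _k1 hD _k3 using fun c => Whitney.taylor2
    (Whitney.smooth_fderiv (A.psi_smooth c).contDiffOn isOpen_box) isOpen_box
    (isCompact_closedBall (0 : Pt) (3 / 4)) (convex_closedBall _ _) hsub
  have hs1 : 0 ≤ ∑ c, C₁ c := Finset.sum_nonneg fun c _ => hC₁ c
  have hs2 : 0 ≤ ∑ c, C₂ c := Finset.sum_nonneg fun c _ => hC₂ c
  refine ⟨(∑ c, C₁ c + ∑ c, C₂ c) * Λ ^ 2, mul_nonneg (add_nonneg hs1 hs2) (sq_nonneg _),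
    fun c p hp q hq => ?_⟩
  set r := ‖A.psi c p - A.psi c q‖
  have hw : ‖p - q‖ ≤ Λ * r := by
    have e : A.L c *ᵥ (A.psi c p - A.psi c q) = p - q := by
      conv_rhs => rw [← A.left_inv c p (hsub hp), ← A.left_inv c q (hsub hq)]
      rw [← mulVec_sub, sub_sub_sub_cancel_right]
    rw [← e]
    exact hL c _
  have hl1 : C₁ c ≤ ∑ c, C₁ c := Finset.single_le_sum (fun c _ => hC₁ c) (Finset.mem_univ c)
  have hl2 : C₂ c ≤ ∑ c, C₂ c := Finset.single_le_sum (fun c _ => hC₂ c) (Finset.mem_univ c)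
  have hr : 0 ≤ r := norm_nonneg _
  constructor
  · rw [A.dmat_mulVec]
    refine (hT c p hp q hq).trans ?_
    calc C₁ c * ‖p - q‖ ^ 2 ≤ (∑ c, C₁ c + ∑ c, C₂ c) * (Λ * r) ^ 2 :=
          mul_le_mul (by linarith) (pow_le_pow_left₀ (norm_nonneg _) hw 2) (sq_nonneg _)
            (add_nonneg hs1 hs2)
      _ = _ := by ring
  · intro v
    rw [A.dmat_mulVec, A.dmat_mulVec, ← _root_.sub_apply]
    refine (ContinuousLinearMap.le_opNorm _ v).trans (mul_le_mul_of_nonneg_right ?_ (norm_nonneg v))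
    refine (hD c p hp q hq).trans ?_
    calc C₂ c * ‖p - q‖ ≤ (∑ c, C₁ c + ∑ c, C₂ c) * (Λ ^ 2 * r) :=
          mul_le_mul (by linarith)
            (hw.trans (mul_le_mul_of_nonneg_right (le_self_pow₀ hΛ (by norm_num)) hr))
            (norm_nonneg _) (add_nonneg hs1 hs2)
      _ = _ := by ring

variable {A}
variable {J : Amb N → MN N} (hJ : IsACS A J)
include hJ

/-- The bilinear form behind `offX`. -/
theorem offX_quad (y l b d : Amb N) (t : ℝ) : A.offX J y l (b + t • d) = A.offX J y l b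
    + 2 * t * ((A.proj y *ᵥ b) ⬝ᵥ (A.gMat J y *ᵥ (A.proj y *ᵥ d)) * (l ⬝ᵥ (A.gMat J y *ᵥ l))
      - (A.proj y *ᵥ b) ⬝ᵥ (A.gMat J y *ᵥ l) * ((A.proj y *ᵥ d) ⬝ᵥ (A.gMat J y *ᵥ l))
      - (A.proj y *ᵥ b) ⬝ᵥ (A.gMat J y *ᵥ (J y *ᵥ l))
          * ((A.proj y *ᵥ d) ⬝ᵥ (A.gMat J y *ᵥ (J y *ᵥ l))))
    + t ^ 2 * A.offX J y l d := by
  have e := g_symm (A := A) (J := J) y (A.proj y *ᵥ d) (A.proj y *ᵥ b)
  simp only [Atlas.offX, mulVec_add, mulVec_smul, add_dotProduct, dotProduct_add, smul_dotProduct,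
    dotProduct_smul, smul_eq_mul, e]
  ring

theorem sqrt_offX_add {y l : Amb N} (hl : A.IsTan y l) (b d : Amb N) :
    Real.sqrt (A.offX J y l (b + d)) ≤ Real.sqrt (A.offX J y l b) + Real.sqrt (A.offX J y l d) := by
  set f := A.offX J y l
  set Bf := (A.proj y *ᵥ b) ⬝ᵥ (A.gMat J y *ᵥ (A.proj y *ᵥ d)) * (l ⬝ᵥ (A.gMat J y *ᵥ l))
      - (A.proj y *ᵥ b) ⬝ᵥ (A.gMat J y *ᵥ l) * ((A.proj y *ᵥ d) ⬝ᵥ (A.gMat J y *ᵥ l))
      - (A.proj y *ᵥ b) ⬝ᵥ (A.gMat J y *ᵥ (J y *ᵥ l))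
          * ((A.proj y *ᵥ d) ⬝ᵥ (A.gMat J y *ᵥ (J y *ᵥ l)))
  have hb := offX_nonneg hJ hl b
  have hd := offX_nonneg hJ hl d
  have h := discrim_le_zero (a := f d) (b := 2 * Bf) (c := f b) fun t => by
    have := offX_nonneg hJ hl (b + t • d)
    rw [offX_quad hJ] at this
    linarith
  have hB : Bf ≤ Real.sqrt (f b) * Real.sqrt (f d) := by
    rw [← Real.sqrt_mul hb]
    refine Real.le_sqrt_of_sq_le ?_
    simp only [discrim] at h
    linarith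
  rw [Real.sqrt_le_iff]
  refine ⟨add_nonneg (Real.sqrt_nonneg _) (Real.sqrt_nonneg _), ?_⟩
  have e := offX_quad hJ y l b d 1
  rw [one_smul] at e
  show A.offX J y l (b + d) ≤ (Real.sqrt (A.offX J y l b) + Real.sqrt (A.offX J y l d)) ^ 2
  rw [e, add_sq, Real.sq_sqrt hb, Real.sq_sqrt hd]
  linarith

/-- The distance to a unit line is controlled by the length, and is Lipschitz. -/
theorem exists_offX_le : ∃ M : ℝ, 0 ≤ M ∧ ∀ y l, A.IsTan y l → l ⬝ᵥ l = 1 → ∀ a b : Amb N,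
    Real.sqrt (A.offX J y l a) ≤ M * ‖a‖ ∧
      Real.sqrt (A.offX J y l a) ≤ Real.sqrt (A.offX J y l b) + M * ‖a - b‖ ∧
      l ⬝ᵥ (A.gMat J y *ᵥ l) ≤ M := by
  obtain ⟨m, C, hm, hb⟩ := exists_mMat_bounds hJ
  refine ⟨|C|, abs_nonneg C, fun y l hl h1 a b => ?_⟩
  have hy := A.mem_of_isTan hl
  have hgl : l ⬝ᵥ (A.gMat J y *ᵥ l) ≤ |C| := by
    rw [← mMat_tan hl hl]
    refine (hb y hy l).2.trans ((mul_le_mul_of_nonneg_right (le_abs_self C) (sq_nonneg _)).trans ?_)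
    exact mul_le_of_le_one_right (abs_nonneg C) (pow_le_one₀ (norm_nonneg _) (norm_le_one_of_dot h1))
  have hle : ∀ v, Real.sqrt (A.offX J y l v) ≤ |C| * ‖v‖ := fun v => by
    rw [Real.sqrt_le_iff]
    refine ⟨mul_nonneg (abs_nonneg C) (norm_nonneg v), ?_⟩
    set P := A.proj y *ᵥ v with hP
    have e : v ⬝ᵥ (A.mMat J y *ᵥ v) = P ⬝ᵥ (A.gMat J y *ᵥ P) + (v - P) ⬝ᵥ (v - P) := by
      have h : v ⬝ᵥ P = P ⬝ᵥ P := by
        conv_lhs => rw [hP, ← A.proj_fix (A.proj_tan hy v), A.dot_proj y v]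
      rw [mMat_eq, ← hP]
      simp only [sub_dotProduct, dotProduct_sub, dotProduct_comm P v]
      linarith
    have hPv : P ⬝ᵥ (A.gMat J y *ᵥ P) ≤ |C| * ‖v‖ ^ 2 := by
      have h0 : 0 ≤ (v - P) ⬝ᵥ (v - P) := Finset.sum_nonneg fun i _ => mul_self_nonneg _
      linarith [(hb y hy v).2, mul_le_mul_of_nonneg_right (le_abs_self C) (sq_nonneg ‖v‖)]
    have h2 := mul_le_mul hPv hgl (g_nonneg y l) (by positivity)
    show P ⬝ᵥ (A.gMat J y *ᵥ P) * (l ⬝ᵥ (A.gMat J y *ᵥ l)) - (P ⬝ᵥ (A.gMat J y *ᵥ l)) ^ 2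
      - (P ⬝ᵥ (A.gMat J y *ᵥ (J y *ᵥ l))) ^ 2 ≤ (|C| * ‖v‖) ^ 2
    nlinarith [sq_nonneg (P ⬝ᵥ (A.gMat J y *ᵥ l)), sq_nonneg (P ⬝ᵥ (A.gMat J y *ᵥ (J y *ᵥ l)))]
  refine ⟨hle a, ?_, hgl⟩
  have h := sqrt_offX_add hJ hl b (a - b)
  rw [add_sub_cancel] at h
  linarith [hle (a - b)]

/-- In a chart `offX` on tangent vectors is `offK` of the jet. -/
theorem offK_jetAt (c : Fin K) {q : Pt} (hq : q ∈ box) (u v : Pt) :
    offK (jetAt hJ c hq) u v = A.offX J (A.psi c q) (A.dmat c q *ᵥ u) (A.dmat c q *ᵥ v) := by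
  have hj := J_chart hJ (⟨q, hq, rfl⟩ : A.psi c q ∈ A.psi c '' box) u
  rw [A.phi_psi c hq] at hj
  simp only [offK, Atlas.offX, jetAt_g, jetAt_j, A.proj_fix (A.isTan_dmat c hq v), hj]

end Atlas

end Vale.Agent.P204.General
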