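import Mathlib
import Vale.Agent.P204.Core.TestStmt

/-!
# P204: multilinearity and crude bounds of `dd` and `dudd`
-/

open Matrix

namespace Vale.Agent.P204.Core

open Vale.Agent.P204.Torus

variable (P : PairData)

theorem jt_add (U V : Pt × Pt) : P.jt (U + V) = P.jt U + P.jt V := by
  simp [PairData.jt, mulVec_add]

theorem jt_smul (t : ℝ) (V : Pt × Pt) : P.jt (t • V) = t • P.jt V := by
  simp [PairData.jt, mulVec_smul]

theorem dBeta_add_left (U U' V : Pt × Pt) : P.dBeta (U + U') V = P.dBeta U V + P.dBeta U' V := by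
  have e : (P.jdx (U + U').1 *ᵥ V.1, P.K.jd (U + U').2 *ᵥ V.2)
      = (P.jdx U.1 *ᵥ V.1, P.K.jd U.2 *ᵥ V.2) + (P.jdx U'.1 *ᵥ V.1, P.K.jd U'.2 *ᵥ V.2) := by
    simp [add_mulVec]
  rw [PairData.dBeta, e, map_add, map_add, LinearMap.add_apply, PairData.dBeta, PairData.dBeta]
  ring

theorem dBeta_add_right (U V V' : Pt × Pt) : P.dBeta U (V + V') = P.dBeta U V + P.dBeta U V' := by
  have e : (P.jdx U.1 *ᵥ (V + V').1, P.K.jd U.2 *ᵥ (V + V').2)
      = (P.jdx U.1 *ᵥ V.1, P.K.jd U.2 *ᵥ V.2) + (P.jdx U.1 *ᵥ V'.1, P.K.jd U.2 *ᵥ V'.2) := by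
    simp [mulVec_add]
  rw [PairData.dBeta, e, jt_add, map_add, map_add, PairData.dBeta, PairData.dBeta]
  ring

theorem dBeta_smul_left (t : ℝ) (U V : Pt × Pt) : P.dBeta (t • U) V = t * P.dBeta U V := by
  have e : (P.jdx (t • U).1 *ᵥ V.1, P.K.jd (t • U).2 *ᵥ V.2)
      = t • (P.jdx U.1 *ᵥ V.1, P.K.jd U.2 *ᵥ V.2) := by
    simp [smul_mulVec]
  rw [PairData.dBeta, e, map_smul, map_smul, LinearMap.smul_apply, PairData.dBeta]
  simp only [smul_eq_mul]
  ring

theorem dBeta_smul_right (t : ℝ) (U V : Pt × Pt) : P.dBeta U (t • V) = t * P.dBeta U V := by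
  have e : (P.jdx U.1 *ᵥ (t • V).1, P.K.jd U.2 *ᵥ (t • V).2)
      = t • (P.jdx U.1 *ᵥ V.1, P.K.jd U.2 *ᵥ V.2) := by
    simp [mulVec_smul]
  rw [PairData.dBeta, e, jt_smul, map_smul, map_smul, PairData.dBeta]
  simp only [smul_eq_mul]
  ring

theorem dd_add_left (U U' V : Pt × Pt) : P.dd (U + U') V = P.dd U V + P.dd U' V := by
  simp only [PairData.dd, PairData.curl, dBeta_add_left, dBeta_add_right, jt_add, map_add]
  ring

theorem dd_smul_left (t : ℝ) (U V : Pt × Pt) : P.dd (t • U) V = t * P.dd U V := by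
  simp only [PairData.dd, PairData.curl, dBeta_smul_left, dBeta_smul_right, jt_smul, map_smul,
    smul_eq_mul]
  ring

theorem dd_swap (U V : Pt × Pt) : P.dd U V = -P.dd V U := by
  simp only [PairData.dd, PairData.curl]
  ring

theorem dd_add_right (U V V' : Pt × Pt) : P.dd U (V + V') = P.dd U V + P.dd U V' := by
  rw [dd_swap, dd_add_left, dd_swap P U V, dd_swap P U V']
  ring

theorem dd_smul_right (t : ℝ) (U V : Pt × Pt) : P.dd U (t • V) = t * P.dd U V := by
  rw [dd_swap, dd_smul_left, dd_swap P U V]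
  ring

theorem dudd_add_mid (U V V' W : Pt × Pt) : P.dudd U (V + V') W = P.dudd U V W + P.dudd U V' W := by
  simp only [PairData.dudd, PairData.curl, dBeta_add_left, dBeta_add_right, map_add]
  ring

theorem dudd_add_last (U V W W' : Pt × Pt) : P.dudd U V (W + W') = P.dudd U V W + P.dudd U V W' := by
  simp only [PairData.dudd, PairData.curl, dBeta_add_left, dBeta_add_right, map_add]
  ring

theorem dudd_smul₁ (t : ℝ) (U V W : Pt × Pt) : P.dudd (t • U) V W = t * P.dudd U V W := by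
  simp only [PairData.dudd, PairData.curl, dBeta_smul_left, dBeta_smul_right, map_smul, smul_eq_mul]
  ring

theorem dudd_smul₂ (t : ℝ) (U V W : Pt × Pt) : P.dudd U (t • V) W = t * P.dudd U V W := by
  simp only [PairData.dudd, PairData.curl, dBeta_smul_left, dBeta_smul_right, map_smul, smul_eq_mul]
  ring

theorem dudd_smul₃ (t : ℝ) (U V W : Pt × Pt) : P.dudd U V (t • W) = t * P.dudd U V W := by
  simp only [PairData.dudd, PairData.curl, dBeta_smul_left, dBeta_smul_right, map_smul, smul_eq_mul]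
  ring

theorem snd_pair_add (a b : Pt) : ((0 : Pt), a + b) = ((0 : Pt), a) + ((0 : Pt), b) := by simp

theorem snd_pair_smul (t : ℝ) (a : Pt) : ((0 : Pt), t • a) = t • ((0 : Pt), a) := by simp

theorem fst_pair_smul (t : ℝ) (a : Pt) : (t • a, (0 : Pt)) = t • (a, (0 : Pt)) := by simp

/-- A bilinear function from its values on the unit vectors. -/
theorem ev_of_bilinear {f : Pt → Pt → ℝ} (al : ∀ a a' b, f (a + a') b = f a b + f a' b)
    (sl : ∀ (t : ℝ) a b, f (t • a) b = t * f a b) (ar : ∀ a b b', f a (b + b') = f a b + f a b')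
    (sr : ∀ (t : ℝ) a b, f a (t • b) = t * f a b) {M : M4}
    (hM : ∀ i k, M i k = f (Pi.single i 1) (Pi.single k 1)) (a b : Pt) : ev M a b = f a b := by
  have h := Matrix.toLinearMap₂'_toMatrix' (R := ℝ) (LinearMap.mk₂ ℝ f al sl ar sr)
  have hm : LinearMap.toMatrix₂' ℝ (LinearMap.mk₂ ℝ f al sl ar sr) = M := by
    ext i k
    simp [LinearMap.toMatrix₂'_apply, hM]
  rw [hm] at h
  rw [show f a b = LinearMap.mk₂ ℝ f al sl ar sr a b from rfl, ← h, Matrix.toLinearMap₂'_apply', ev]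

/-- The entries of `dd` on the second factor give `dd` on it. -/
theorem ev_dd {M : M4} (hM : ∀ i k, M i k = P.dd (0, Pi.single i 1) (0, Pi.single k 1)) (a b : Pt) :
    ev M a b = P.dd (0, a) (0, b) :=
  ev_of_bilinear (f := fun a b => P.dd (0, a) (0, b))
    (fun a a' b => by rw [snd_pair_add, dd_add_left])
    (fun t a b => by rw [snd_pair_smul, dd_smul_left])
    (fun a b b' => by rw [snd_pair_add, dd_add_right])
    (fun t a b => by rw [snd_pair_smul, dd_smul_right]) hM a b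

/-- The entries of `dudd (U, ·, ·)` on the second factor give it on the second factor. -/
theorem ev_dudd (U : Pt × Pt) {M : M4}
    (hM : ∀ i k, M i k = P.dudd U (0, Pi.single i 1) (0, Pi.single k 1)) (a b : Pt) :
    ev M a b = P.dudd U (0, a) (0, b) :=
  ev_of_bilinear (f := fun a b => P.dudd U (0, a) (0, b))
    (fun a a' b => by rw [snd_pair_add, dudd_add_mid])
    (fun t a b => by rw [snd_pair_smul, dudd_smul₂])
    (fun a b b' => by rw [snd_pair_add, dudd_add_last])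
    (fun t a b => by rw [snd_pair_smul, dudd_smul₃]) hM a b

/-- Bounds on the data away from the diagonal. -/
structure PairData.Bound (B m : ℝ) : Prop where
  one : 1 ≤ B
  pos : 0 < m
  low : m ≤ P.q + P.s ^ 2
  abd : ∀ V, |P.a V| ≤ B * ‖V‖
  hbd : ∀ U V, |P.h U V| ≤ B * ‖U‖ * ‖V‖
  jxbd : ∀ v, ‖P.jx *ᵥ v‖ ≤ B * ‖v‖
  jbd : ∀ v, ‖P.K.j *ᵥ v‖ ≤ B * ‖v‖
  jdxbd : ∀ z v, ‖P.jdx z *ᵥ v‖ ≤ B * ‖z‖ * ‖v‖
  jdbd : ∀ z v, ‖P.K.jd z *ᵥ v‖ ≤ B * ‖z‖ * ‖v‖

variable {P} {B m : ℝ}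

theorem PairData.Bound.curl_le (h : P.Bound B m) (U V : Pt × Pt) :
    |P.curl U V| ≤ 4 * B ^ 2 * (‖U‖ * ‖V‖) := by
  have hB : 0 ≤ B := zero_le_one.trans h.one
  have hd : ∀ U V, |P.dBeta U V| ≤ 2 * B ^ 2 * (‖U‖ * ‖V‖) := fun U V => by
    have h1 : |P.h U (P.jt V)| ≤ B * ‖U‖ * (B * ‖V‖) := (h.hbd U _).trans
      (mul_le_mul_of_nonneg_left (max_le ((h.jxbd V.1).trans (mul_le_mul_of_nonneg_left (norm_fst_le V) hB))
        ((h.jbd V.2).trans (mul_le_mul_of_nonneg_left (norm_snd_le V) hB)))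
        (mul_nonneg hB (norm_nonneg U)))
    have h2 : |P.a (P.jdx U.1 *ᵥ V.1, P.K.jd U.2 *ᵥ V.2)| ≤ B * (B * ‖U‖ * ‖V‖) := (h.abd _).trans
      (mul_le_mul_of_nonneg_left (max_le ((h.jdxbd U.1 V.1).trans (by
          gcongr <;> first | exact norm_fst_le U | exact norm_fst_le V))
        ((h.jdbd U.2 V.2).trans (by
          gcongr <;> first | exact norm_snd_le U | exact norm_snd_le V))) hB)
    rw [PairData.dBeta]
    refine (abs_add_le _ _).trans ((add_le_add h1 h2).trans_eq ?_)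
    ring
  rw [PairData.curl]
  refine (abs_sub _ _).trans ((add_le_add (hd U V) (hd V U)).trans_eq ?_)
  ring

theorem PairData.Bound.dd_le (h : P.Bound B m) (U V : Pt × Pt) :
    |P.dd U V| ≤ (2 * B ^ 2 / m + B ^ 3 / m ^ 2) * (‖U‖ * ‖V‖) := by
  have hB : 0 ≤ B := zero_le_one.trans h.one
  have hQ : 0 < P.q + P.s ^ 2 := h.pos.trans_le h.low
  have hj : ∀ V, |P.a (P.jt V)| ≤ B * (B * ‖V‖) := fun V => (h.abd _).trans
    (mul_le_mul_of_nonneg_left (max_le ((h.jxbd V.1).trans (mul_le_mul_of_nonneg_left (norm_fst_le V) hB))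
      ((h.jbd V.2).trans (mul_le_mul_of_nonneg_left (norm_snd_le V) hB))) hB)
  have n2 : |P.a U * P.a (P.jt V) - P.a V * P.a (P.jt U)| ≤ 2 * B ^ 3 * (‖U‖ * ‖V‖) := by
    refine (abs_sub _ _).trans ?_
    rw [abs_mul, abs_mul]
    refine (add_le_add
      (mul_le_mul (h.abd U) (hj V) (abs_nonneg _) (mul_nonneg hB (norm_nonneg U)))
      (mul_le_mul (h.abd V) (hj U) (abs_nonneg _) (mul_nonneg hB (norm_nonneg V)))).trans_eq ?_
    ring
  rw [PairData.dd]
  refine (abs_add_le _ _).trans ?_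
  rw [abs_div, abs_div, abs_neg, abs_of_pos (by positivity : (0 : ℝ) < 2 * (P.q + P.s ^ 2)),
    abs_of_pos (by positivity : (0 : ℝ) < 2 * (P.q + P.s ^ 2) ^ 2)]
  have hm := h.pos
  refine (add_le_add
    (div_le_div₀ (by positivity) (h.curl_le U V) (by positivity : (0 : ℝ) < 2 * m)
      (mul_le_mul_of_nonneg_left h.low zero_le_two))
    (div_le_div₀ (by positivity) n2 (by positivity : (0 : ℝ) < 2 * m ^ 2)
      (mul_le_mul_of_nonneg_left (pow_le_pow_left₀ hm.le h.low 2) zero_le_two))).trans_eq ?_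
  field_simp
  ring

theorem PairData.Bound.dudd_le (h : P.Bound B m) (U V W : Pt × Pt) :
    |P.dudd U V W| ≤ 3 * B ^ 3 / m ^ 2 * (‖U‖ * ‖V‖ * ‖W‖) := by
  have hB : 0 ≤ B := zero_le_one.trans h.one
  have hA : ∀ X Y Z, |P.a X * P.curl Y Z| ≤ 4 * B ^ 3 * (‖X‖ * ‖Y‖ * ‖Z‖) := fun X Y Z => by
    rw [abs_mul]
    refine (mul_le_mul (h.abd X) (h.curl_le Y Z) (abs_nonneg _)
      (mul_nonneg hB (norm_nonneg X))).trans_eq ?_
    ring
  have hm := h.pos
  have hQ : 0 < P.q + P.s ^ 2 := hm.trans_le h.low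
  rw [PairData.dudd, abs_div, abs_neg, abs_of_pos (by positivity : (0 : ℝ) < 4 * (P.q + P.s ^ 2) ^ 2)]
  refine (div_le_div₀ (by positivity)
    ((abs_add_three _ _ _).trans (add_le_add (add_le_add (hA U V W) (hA V W U)) (hA W U V)))
    (by positivity : (0 : ℝ) < 4 * m ^ 2)
    (mul_le_mul_of_nonneg_left (pow_le_pow_left₀ hm.le h.low 2) (by norm_num))).trans_eq ?_
  field_simp
  ring

end Vale.Agent.P204.Core
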