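import Mathlib
import Vale.Agent.P204.Core.TestMain
import Vale.Agent.P204.General.Test.PairAlg
import Vale.Agent.P204.General.Test.Off

/-!
# P204 on a closed four-manifold: the test potential estimates at a pair of chart points
-/

set_option maxSynthPendingDepth 3

open Matrix
open scoped ContDiff

namespace Vale.Agent.P204.General

open Vale.Agent.P204.Torus Vale.Agent.P204.Core

variable {N K : ℕ}

theorem absorb {R r W V W' V' L k : ℝ} (hR : 0 < R) (hr : 0 ≤ r) (hrR : r ≤ R) (hW : 0 ≤ W)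
    (hV : 0 ≤ V) (hV' : 0 ≤ V') (hL : 0 ≤ L) (hk : 0 ≤ k) (hWW : W' ≤ W + k * r ^ 2)
    (hVV : V' ≤ V + k * r) :
    W' * V' / R ^ 4 + L * W' / R ^ 3 + L * V' / R ^ 2 + L / R
      ≤ (1 + L) * (1 + k) ^ 2 * (W * V / R ^ 4 + W / R ^ 3 + V / R ^ 2 + 1 / R) := by
  have h1 : W' * V' ≤ W * V + k * R * W + k * R ^ 2 * V + k ^ 2 * R ^ 3 := by
    have h2 : W' ≤ W + k * R ^ 2 :=
      hWW.trans (by linarith [mul_le_mul_of_nonneg_left (pow_le_pow_left₀ hr hrR 2) hk])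
    have h3 : V' ≤ V + k * R := hVV.trans (by linarith [mul_le_mul_of_nonneg_left hrR hk])
    refine (mul_le_mul h2 h3 hV' (by positivity)).trans_eq ?_
    ring
  have h2 : L * W' ≤ L * W + L * k * R ^ 2 := by
    nlinarith [mul_le_mul_of_nonneg_left hWW hL,
      mul_le_mul_of_nonneg_left (pow_le_pow_left₀ hr hrR 2) (mul_nonneg hL hk)]
  have h3 : L * V' ≤ L * V + L * k * R := by
    nlinarith [mul_le_mul_of_nonneg_left hVV hL, mul_le_mul_of_nonneg_left hrR (mul_nonneg hL hk)]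
  calc W' * V' / R ^ 4 + L * W' / R ^ 3 + L * V' / R ^ 2 + L / R
      ≤ (W * V + k * R * W + k * R ^ 2 * V + k ^ 2 * R ^ 3) / R ^ 4
        + (L * W + L * k * R ^ 2) / R ^ 3 + (L * V + L * k * R) / R ^ 2 + L / R := by gcongr
    _ = 1 * (W * V / R ^ 4) + (k + L) * (W / R ^ 3) + (k + L) * (V / R ^ 2)
        + (k ^ 2 + 2 * (L * k) + L) * (1 / R) := by field_simp; ring
    _ ≤ (1 + L) * (1 + k) ^ 2 * (W * V / R ^ 4) + (1 + L) * (1 + k) ^ 2 * (W / R ^ 3)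
        + (1 + L) * (1 + k) ^ 2 * (V / R ^ 2) + (1 + L) * (1 + k) ^ 2 * (1 / R) := by
        gcongr <;> nlinarith [mul_nonneg hL hk, mul_nonneg hL (sq_nonneg k), sq_nonneg k]
    _ = _ := by ring

theorem const_le_div {X R D : ℝ} (hX : 0 ≤ X) (hR : 0 < R) (hRD : R ≤ D) (n : ℕ) :
    X ≤ X * D ^ n / R ^ n := by
  rw [le_div_iff₀ (pow_pos hR n)]
  exact mul_le_mul_of_nonneg_left (pow_le_pow_left₀ hR.le hRD n) hX

namespace Atlas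

variable {A : Atlas N K} {J : Amb N → MN N} (hJ : IsACS A J)

/-- The data of the potential at a pair of chart points. -/
noncomputable def pd2 (e c : Fin K) (p : Pt) {q : Pt} (hq : q ∈ box) (s : ℝ) : PairData :=
  pairOf (jetAt hJ c hq) (A.jc J e) (A.qPair J e c) s (p, q)

/-- The estimates at the points `psi e p` and `psi c q`. -/
structure PairEst (e c : Fin K) (p : Pt) {q : Pt} (hq : q ∈ box) (s C : ℝ) : Prop where
  dd : ∀ a b : Pt, ‖a‖ ≤ 1 → ‖b‖ ≤ 1 →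
    |(pd2 hJ e c p hq s).dd (0, a) (0, b)| ≤ C / rsX s (A.psi e p) (A.psi c q) ^ 2
  anti : ∀ a b : Pt, ‖a‖ ≤ 1 → ‖b‖ ≤ 1 →
    |(pd2 hJ e c p hq s).dd (0, A.jc J c q *ᵥ a) (0, A.jc J c q *ᵥ b)
      - (pd2 hJ e c p hq s).dd (0, a) (0, b)| ≤ C / rsX s (A.psi e p) (A.psi c q)
  line : ∀ u : Pt, (A.dmat c q *ᵥ u) ⬝ᵥ (A.dmat c q *ᵥ u) = 1 →
    |(pd2 hJ e c p hq s).dd (0, u) (0, A.jc J c q *ᵥ u)
      - 2 * (A.offX J (A.psi c q) (A.dmat c q *ᵥ u) (A.psi e p - A.psi c q)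
          + s ^ 2 * ((A.dmat c q *ᵥ u) ⬝ᵥ (A.gMat J (A.psi c q) *ᵥ (A.dmat c q *ᵥ u))))
        / (A.q0 J (A.psi e p) (A.psi c q) + s ^ 2) ^ 2| ≤ C / rsX s (A.psi e p) (A.psi c q)
  dudd : ∀ w, A.IsTan (A.psi e p) w → w ⬝ᵥ w = 1 → ∀ a b : Pt, ‖a‖ ≤ 1 → ‖b‖ ≤ 1 →
    |(pd2 hJ e c p hq s).dudd (A.L e *ᵥ w, 0) (0, a) (0, b)|
      ≤ C / rsX s (A.psi e p) (A.psi c q) ^ 3
  duline : ∀ w, A.IsTan (A.psi e p) w → w ⬝ᵥ w = 1 →
    ∀ u : Pt, (A.dmat c q *ᵥ u) ⬝ᵥ (A.dmat c q *ᵥ u) = 1 →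
    |(pd2 hJ e c p hq s).dudd (A.L e *ᵥ w, 0) (0, u) (0, A.jc J c q *ᵥ u)|
      ≤ C * (Real.sqrt (A.offX J (A.psi c q) (A.dmat c q *ᵥ u) (A.psi e p - A.psi c q))
            * Real.sqrt (A.offX J (A.psi c q) (A.dmat c q *ᵥ u) w)
            / rsX s (A.psi e p) (A.psi c q) ^ 4
          + Real.sqrt (A.offX J (A.psi c q) (A.dmat c q *ᵥ u) (A.psi e p - A.psi c q))
            / rsX s (A.psi e p) (A.psi c q) ^ 3
          + Real.sqrt (A.offX J (A.psi c q) (A.dmat c q *ᵥ u) w)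
            / rsX s (A.psi e p) (A.psi c q) ^ 2
          + 1 / rsX s (A.psi e p) (A.psi c q))

variable {e c : Fin K} {p q : Pt} {hq : q ∈ box} {s : ℝ}

theorem PairEst.mono {C C' : ℝ} (h : PairEst hJ e c p hq s C) (hs : 0 < s) (hC : C ≤ C') :
    PairEst hJ e c p hq s C' := by
  have hR := rsX_pos hs (A.psi e p) (A.psi c q)
  exact
    { dd := fun a b ha hb => (h.dd a b ha hb).trans (by gcongr)
      anti := fun a b ha hb => (h.anti a b ha hb).trans (by gcongr)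
      line := fun u hu => (h.line u hu).trans (by gcongr)
      dudd := fun w hw hw1 a b ha hb => (h.dudd w hw hw1 a b ha hb).trans (by gcongr)
      duline := fun w hw hw1 u hu =>
        (h.duline w hw hw1 u hu).trans (mul_le_mul_of_nonneg_right hC (by positivity)) }

include hJ in
theorem exists_q0_low : ∃ m : ℝ, 0 < m ∧ ∀ x ∈ A.X, ∀ y ∈ A.X, ∀ s : ℝ,
    m * rsX s x y ^ 2 ≤ A.q0 J x y + s ^ 2 := by
  obtain ⟨m, M, hm, h⟩ := exists_q0_bounds hJ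
  refine ⟨min m 1, lt_min hm one_pos, fun x hx y hy s => ?_⟩
  rw [rsX_sq]
  nlinarith [(h x hx y hy).1, mul_le_mul_of_nonneg_right (min_le_left m 1) (sq_nonneg ‖x - y‖),
    mul_le_mul_of_nonneg_right (min_le_right m 1) (sq_nonneg s)]

theorem abs_sub_of_sqrt {a b S E : ℝ} (ha : 0 ≤ a) (hb : 0 ≤ b)
    (hS : Real.sqrt a + Real.sqrt b ≤ S) (hE₁ : Real.sqrt a ≤ Real.sqrt b + E)
    (hE₂ : Real.sqrt b ≤ Real.sqrt a + E) : |a - b| ≤ S * E := by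
  have e : a - b = (Real.sqrt a + Real.sqrt b) * (Real.sqrt a - Real.sqrt b) := by
    rw [← sq_sub_sq, Real.sq_sqrt ha, Real.sq_sqrt hb]
  rw [e, abs_mul, abs_of_nonneg (add_nonneg (Real.sqrt_nonneg _) (Real.sqrt_nonneg _))]
  have hE : |Real.sqrt a - Real.sqrt b| ≤ E := abs_sub_le_iff.2 ⟨by linarith, by linarith⟩
  exact mul_le_mul hS hE (abs_nonneg _)
    ((add_nonneg (Real.sqrt_nonneg _) (Real.sqrt_nonneg _)).trans hS)

theorem unit_split {Λ : ℝ} (hΛ0 : 0 ≤ Λ) (hL : ∀ (c : Fin K) (v : Amb N), ‖A.L c *ᵥ v‖ ≤ Λ * ‖v‖)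
    (c : Fin K) {q : Pt} (hq : q ∈ box) {u : Pt}
    (hu : (A.dmat c q *ᵥ u) ⬝ᵥ (A.dmat c q *ᵥ u) = 1) :
    ∃ τ u₁, 0 < τ ∧ τ ≤ Λ ∧ ‖u₁‖ = 1 ∧ u = τ • u₁ := by
  have hu0 : u ≠ 0 := fun h => by simp [h] at hu
  have hτ : 0 < ‖u‖ := norm_pos_iff.2 hu0
  refine ⟨‖u‖, ‖u‖⁻¹ • u, hτ, ?_, norm_smul_inv_norm hu0, (smul_inv_smul₀ hτ.ne' u).symm⟩
  have := (hL c _).trans (mul_le_of_le_one_right hΛ0 (norm_le_one_of_dot hu))
  rwa [A.L_mulVec_dmat c hq] at this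

theorem near_line {B Λ G M m D : ℝ} (hB : 0 ≤ B) (hΛ0 : 0 ≤ Λ) (hG : 0 ≤ G) (hM : 0 ≤ M)
    (hm : 0 < m) (hD : 0 ≤ D) (hL : ∀ (c : Fin K) (v : Amb N), ‖A.L c *ᵥ v‖ ≤ Λ * ‖v‖)
    (hoff : ∀ y l, A.IsTan y l → l ⬝ᵥ l = 1 → ∀ a b : Amb N,
      Real.sqrt (A.offX J y l a) ≤ M * ‖a‖ ∧
        Real.sqrt (A.offX J y l a) ≤ Real.sqrt (A.offX J y l b) + M * ‖a - b‖ ∧
        l ⬝ᵥ (A.gMat J y *ᵥ l) ≤ M)
    {c : Fin K} {p q : Pt} (hq : q ∈ box) {s R : ℝ} (hR : 0 < R)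
    (hrR : ‖A.psi c p - A.psi c q‖ ≤ R) (hrD : ‖A.psi c p - A.psi c q‖ ≤ D)
    (hQ : m * R ^ 2 ≤ A.q0 J (A.psi c p) (A.psi c q) + s ^ 2)
    (hw0 : ‖A.dmat c q *ᵥ (p - q) - (A.psi c p - A.psi c q)‖
      ≤ G * ‖A.psi c p - A.psi c q‖ ^ 2)
    (hline : ∀ l, ‖l‖ ≤ 1 → |(pd2 hJ c c p hq s).dd (0, l) (0, A.jc J c q *ᵥ l)
        - 2 * (offK (jetAt hJ c hq) l (p - q) + s ^ 2 * ev (jetAt hJ c hq).g l l)
          / (A.q0 J (A.psi c p) (A.psi c q) + s ^ 2) ^ 2| ≤ B / R)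
    {u : Pt} (hu : (A.dmat c q *ᵥ u) ⬝ᵥ (A.dmat c q *ᵥ u) = 1) :
    |(pd2 hJ c c p hq s).dd (0, u) (0, A.jc J c q *ᵥ u)
      - 2 * (A.offX J (A.psi c q) (A.dmat c q *ᵥ u) (A.psi c p - A.psi c q)
          + s ^ 2 * ((A.dmat c q *ᵥ u) ⬝ᵥ (A.gMat J (A.psi c q) *ᵥ (A.dmat c q *ᵥ u))))
        / (A.q0 J (A.psi c p) (A.psi c q) + s ^ 2) ^ 2|
      ≤ (Λ ^ 2 * B + 2 * (M ^ 2 * G * (2 + G * D)) / m ^ 2) / R := by
  set P := pd2 hJ c c p hq s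
  set y := A.psi c q with hy
  set a := A.psi c p - y with ha'
  set b := A.dmat c q *ᵥ (p - q) with hb'
  set Q := A.q0 J (A.psi c p) y + s ^ 2
  have hmR : 0 < m * R ^ 2 := mul_pos hm (pow_pos hR 2)
  have hQ0 : 0 < Q := lt_of_lt_of_le hmR hQ
  obtain ⟨τ, u₁, hτ, hτΛ, hu₁, rfl⟩ := unit_split hΛ0 hL c hq hu
  set l := A.dmat c q *ᵥ (τ • u₁) with hldef
  have hl : A.IsTan y l := A.isTan_dmat c hq _
  have h1 := hline u₁ hu₁.le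
  have e1 : P.dd (0, τ • u₁) (0, A.jc J c q *ᵥ (τ • u₁))
      = τ ^ 2 * P.dd (0, u₁) (0, A.jc J c q *ᵥ u₁) := by
    rw [mulVec_smul, snd_pair_smul, snd_pair_smul τ (A.jc J c q *ᵥ u₁), dd_smul_left, dd_smul_right]
    ring
  have e2 : A.offX J y l b = τ ^ 2 * offK (jetAt hJ c hq) u₁ (p - q) := by
    rw [← offK_smul_left, offK_jetAt]
  have e3 : l ⬝ᵥ (A.gMat J y *ᵥ l) = τ ^ 2 * ev (jetAt hJ c hq).g u₁ u₁ := by
    rw [hldef, hy, ← jetAt_g hJ c hq (τ • u₁) (τ • u₁), ev_smul_left, ev_smul_right]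
    ring
  have hr0 : 0 ≤ ‖a‖ := norm_nonneg _
  have hn : ‖b‖ ≤ ‖a‖ + G * D * ‖a‖ := by
    have h2 : G * ‖a‖ ^ 2 ≤ G * D * ‖a‖ := by
      rw [sq, ← mul_assoc]
      exact mul_le_mul_of_nonneg_right (mul_le_mul_of_nonneg_left hrD hG) hr0
    linarith [norm_le_norm_add_norm_sub' b a]
  have hdiff : |A.offX J y l a - A.offX J y l b| ≤ M ^ 2 * G * (2 + G * D) * R ^ 3 := by
    obtain ⟨a1, a2, -⟩ := hoff y l hl hu a b
    obtain ⟨b1, b2, -⟩ := hoff y l hl hu b a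
    rw [norm_sub_rev] at a2
    refine (abs_sub_of_sqrt (offX_nonneg hJ hl a) (offX_nonneg hJ hl b)
      (add_le_add a1 (b1.trans (mul_le_mul_of_nonneg_left hn hM)))
      (a2.trans (add_le_add le_rfl (mul_le_mul_of_nonneg_left hw0 hM)))
      (b2.trans (add_le_add le_rfl (mul_le_mul_of_nonneg_left hw0 hM)))).trans ?_
    calc (M * ‖a‖ + M * (‖a‖ + G * D * ‖a‖)) * (M * (G * ‖a‖ ^ 2))
        = M ^ 2 * G * (2 + G * D) * ‖a‖ ^ 3 := by ring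
      _ ≤ M ^ 2 * G * (2 + G * D) * R ^ 3 := by gcongr
  have e4 : P.dd (0, τ • u₁) (0, A.jc J c q *ᵥ (τ • u₁))
      - 2 * (A.offX J y l a + s ^ 2 * (l ⬝ᵥ (A.gMat J y *ᵥ l))) / Q ^ 2
      = τ ^ 2 * (P.dd (0, u₁) (0, A.jc J c q *ᵥ u₁)
        - 2 * (offK (jetAt hJ c hq) u₁ (p - q) + s ^ 2 * ev (jetAt hJ c hq).g u₁ u₁) / Q ^ 2)
        - 2 * (A.offX J y l a - A.offX J y l b) / Q ^ 2 := by
    rw [e1, e2, e3]; ring
  rw [e4]
  refine (abs_sub _ _).trans ?_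
  rw [add_div]
  refine add_le_add ?_ ?_
  · rw [abs_mul, abs_of_nonneg (sq_nonneg τ)]
    exact (mul_le_mul (pow_le_pow_left₀ hτ.le hτΛ 2) h1 (abs_nonneg _) (sq_nonneg _)).trans_eq
      (by ring)
  · rw [abs_div, abs_mul, abs_two, abs_of_pos (pow_pos hQ0 2)]
    refine (div_le_div₀ (by positivity) (mul_le_mul_of_nonneg_left hdiff zero_le_two)
      (pow_pos hmR 2) (pow_le_pow_left₀ hmR.le hQ 2)).trans_eq ?_
    field_simp

theorem near_duline {B Λ G M : ℝ} (hB : 0 ≤ B) (hΛ : 1 ≤ Λ) (hG : 0 ≤ G) (hM : 0 ≤ M)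
    (hL : ∀ (c : Fin K) (v : Amb N), ‖A.L c *ᵥ v‖ ≤ Λ * ‖v‖)
    (hoff : ∀ y l, A.IsTan y l → l ⬝ᵥ l = 1 → ∀ a b : Amb N,
      Real.sqrt (A.offX J y l a) ≤ M * ‖a‖ ∧
        Real.sqrt (A.offX J y l a) ≤ Real.sqrt (A.offX J y l b) + M * ‖a - b‖ ∧
        l ⬝ᵥ (A.gMat J y *ᵥ l) ≤ M)
    {c : Fin K} {p q : Pt} (hp : p ∈ box) (hq : q ∈ box) {s R : ℝ} (hR : 0 < R)
    (hrR : ‖A.psi c p - A.psi c q‖ ≤ R)
    (hw0 : ‖A.dmat c q *ᵥ (p - q) - (A.psi c p - A.psi c q)‖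
      ≤ G * ‖A.psi c p - A.psi c q‖ ^ 2)
    (hdm : ∀ v, ‖A.dmat c p *ᵥ v - A.dmat c q *ᵥ v‖ ≤ G * ‖A.psi c p - A.psi c q‖ * ‖v‖)
    (hduline : ∀ l v, ‖l‖ = 1 → ‖v‖ ≤ 1 →
      |(pd2 hJ c c p hq s).dudd (v, 0) (0, l) (0, A.jc J c q *ᵥ l)| ≤
        B * (Real.sqrt (offK (jetAt hJ c hq) l (p - q)) * Real.sqrt (offK (jetAt hJ c hq) l v) / R ^ 4
          + Real.sqrt (offK (jetAt hJ c hq) l (p - q)) / R ^ 3
          + Real.sqrt (offK (jetAt hJ c hq) l v) / R ^ 2 + 1 / R))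
    {w : Amb N} (hw : A.IsTan (A.psi c p) w) (hw1 : w ⬝ᵥ w = 1)
    {u : Pt} (hu : (A.dmat c q *ᵥ u) ⬝ᵥ (A.dmat c q *ᵥ u) = 1) :
    |(pd2 hJ c c p hq s).dudd (A.L c *ᵥ w, 0) (0, u) (0, A.jc J c q *ᵥ u)|
      ≤ B * ((1 + Λ ^ 3) * (1 + M * G * Λ) ^ 2)
        * (Real.sqrt (A.offX J (A.psi c q) (A.dmat c q *ᵥ u) (A.psi c p - A.psi c q))
            * Real.sqrt (A.offX J (A.psi c q) (A.dmat c q *ᵥ u) w) / R ^ 4
          + Real.sqrt (A.offX J (A.psi c q) (A.dmat c q *ᵥ u) (A.psi c p - A.psi c q)) / R ^ 3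
          + Real.sqrt (A.offX J (A.psi c q) (A.dmat c q *ᵥ u) w) / R ^ 2 + 1 / R) := by
  set P := pd2 hJ c c p hq s
  set y := A.psi c q with hy
  set r := ‖A.psi c p - y‖
  set k := M * G * Λ with hk
  have hΛ0 : 0 ≤ Λ := zero_le_one.trans hΛ
  have hΛp : 0 < Λ := zero_lt_one.trans_le hΛ
  have hr0 : 0 ≤ r := norm_nonneg _
  obtain ⟨τ, u₁, hτ, hτΛ, hu₁, rfl⟩ := unit_split hΛ0 hL c hq hu
  set l := A.dmat c q *ᵥ (τ • u₁) with hldef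
  have hl : A.IsTan y l := A.isTan_dmat c hq _
  set v := A.L c *ᵥ w with hv
  set v₁ := Λ⁻¹ • v with hv₁
  have hnw : ‖v‖ ≤ Λ := (hL c w).trans (mul_le_of_le_one_right hΛ0 (norm_le_one_of_dot hw1))
  have hvn : ‖v₁‖ ≤ 1 := by
    rw [hv₁, norm_smul, norm_inv, Real.norm_eq_abs, abs_of_pos hΛp, inv_mul_le_iff₀ hΛp, mul_one]
    exact hnw
  have hvv : v = Λ • v₁ := (smul_inv_smul₀ hΛp.ne' v).symm
  have h1 := hduline u₁ v₁ hu₁ hvn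
  have e1 : P.dudd (v, 0) (0, τ • u₁) (0, A.jc J c q *ᵥ (τ • u₁))
      = Λ * τ ^ 2 * P.dudd (v₁, 0) (0, u₁) (0, A.jc J c q *ᵥ u₁) := by
    rw [hvv, mulVec_smul, fst_pair_smul, snd_pair_smul, snd_pair_smul τ (A.jc J c q *ᵥ u₁),
      dudd_smul₁, dudd_smul₂, dudd_smul₃]
    ring
  set W₁ := Real.sqrt (offK (jetAt hJ c hq) u₁ (p - q)) with hW₁
  set V₁ := Real.sqrt (offK (jetAt hJ c hq) u₁ v₁) with hV₁
  have eW : Real.sqrt (A.offX J y l (A.dmat c q *ᵥ (p - q))) = τ * W₁ := by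
    rw [hy, hldef, ← offK_jetAt hJ c hq, offK_smul_left, Real.sqrt_mul (sq_nonneg τ),
      Real.sqrt_sq hτ.le]
  have eV : Real.sqrt (A.offX J y l (A.dmat c q *ᵥ v)) = τ * Λ * V₁ := by
    rw [hy, hldef, hvv, ← offK_jetAt hJ c hq, offK_smul_left, offK_smul_right, ← mul_assoc,
      ← mul_pow, Real.sqrt_mul (sq_nonneg _), Real.sqrt_sq (mul_nonneg hτ.le hΛ0)]
  set W := Real.sqrt (A.offX J y l (A.psi c p - y))
  set V := Real.sqrt (A.offX J y l w)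
  have hWW : τ * W₁ ≤ W + k * r ^ 2 := by
    rw [← eW]
    refine (hoff y l hl hu _ (A.psi c p - y)).2.1.trans (add_le_add le_rfl ?_)
    calc M * ‖A.dmat c q *ᵥ (p - q) - (A.psi c p - y)‖ ≤ M * (G * r ^ 2) :=
          mul_le_mul_of_nonneg_left hw0 hM
      _ = M * G * r ^ 2 := by ring
      _ ≤ k * r ^ 2 := mul_le_mul_of_nonneg_right
          (le_mul_of_one_le_right (mul_nonneg hM hG) hΛ) (sq_nonneg r)
  have hwp : A.dmat c p *ᵥ v = w := by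
    have := A.tan_in_chart hw c ⟨p, hp, rfl⟩
    rwa [A.phi_psi c hp] at this
  have hVV : τ * Λ * V₁ ≤ V + k * r := by
    rw [← eV]
    refine (hoff y l hl hu _ w).2.1.trans (add_le_add le_rfl ?_)
    conv_lhs => rw [← hwp, norm_sub_rev]
    refine (mul_le_mul_of_nonneg_left ((hdm v).trans
      (mul_le_mul_of_nonneg_left hnw (mul_nonneg hG hr0))) hM).trans_eq ?_
    rw [hk]; ring
  have hk0 : 0 ≤ k := mul_nonneg (mul_nonneg hM hG) hΛ0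
  have hT := absorb (L := Λ ^ 3) hR hr0 hrR (Real.sqrt_nonneg _) (Real.sqrt_nonneg _)
    (mul_nonneg (mul_nonneg hτ.le hΛ0) (Real.sqrt_nonneg _)) (pow_nonneg hΛ0 3) hk0 hWW hVV
  rw [e1, abs_mul, abs_of_nonneg (mul_nonneg hΛ0 (sq_nonneg τ))]
  refine (mul_le_mul_of_nonneg_left h1 (mul_nonneg hΛ0 (sq_nonneg τ))).trans ?_
  rw [mul_assoc B]
  refine le_trans ?_ (mul_le_mul_of_nonneg_left hT hB)
  rw [← mul_assoc, mul_comm _ B, mul_assoc]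
  refine mul_le_mul_of_nonneg_left ?_ hB
  have l1 : Λ * τ ≤ Λ ^ 3 :=
    (mul_le_mul_of_nonneg_left hτΛ hΛ0).trans ((sq Λ).ge.trans (pow_le_pow_right₀ hΛ (by norm_num)))
  have l2 : τ ≤ Λ ^ 3 := hτΛ.trans (le_self_pow₀ hΛ (by norm_num))
  have l3 : Λ * τ ^ 2 ≤ Λ ^ 3 :=
    (mul_le_mul_of_nonneg_left (pow_le_pow_left₀ hτ.le hτΛ 2) hΛ0).trans_eq (by ring)
  calc Λ * τ ^ 2 * (W₁ * V₁ / R ^ 4 + W₁ / R ^ 3 + V₁ / R ^ 2 + 1 / R)
      = τ * W₁ * (τ * Λ * V₁) / R ^ 4 + Λ * τ * (τ * W₁) / R ^ 3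
        + τ * (τ * Λ * V₁) / R ^ 2 + Λ * τ ^ 2 / R := by ring
    _ ≤ _ := by gcongr

theorem exists_near : ∃ C : ℝ, 0 ≤ C ∧ ∀ c, ∀ p ∈ Metric.closedBall (0 : Pt) (3 / 4),
    ∀ q ∈ Metric.closedBall (0 : Pt) (3 / 4), ∀ (hq : q ∈ box) (s : ℝ), 0 < s → s ≤ 1 →
      PairEst hJ c c p hq s C := by
  have hsub : Metric.closedBall (0 : Pt) (3 / 4) ⊆ box := Metric.closedBall_subset_ball (by norm_num)
  obtain ⟨c₀, C₀, hc₀, hexp⟩ := exists_expansion hJ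
  obtain ⟨B₀, hcore⟩ := testCore (min c₀ 1) C₀ (lt_min hc₀ one_pos)
  obtain ⟨Λ, hΛ, hL⟩ := A.exists_L_bound
  obtain ⟨G, hG, hgeo⟩ := A.exists_geom
  obtain ⟨M, hM, hoff⟩ := exists_offX_le hJ
  obtain ⟨m, hm, hlow⟩ := exists_q0_low hJ
  obtain ⟨D, hD, hrs⟩ := A.exists_rs_le
  set B := max B₀ 0 with hBdef
  have hB : 0 ≤ B := le_max_right _ _
  have hBB : B₀ ≤ B := le_max_left _ _
  have hΛ0 : 0 ≤ Λ := zero_le_one.trans hΛ
  have hD0 : 0 ≤ D := zero_le_one.trans hD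
  set K₁ := Λ ^ 2 * B + 2 * (M ^ 2 * G * (2 + G * D)) / m ^ 2
  set K₂ := B * ((1 + Λ ^ 3) * (1 + M * G * Λ) ^ 2)
  have hK₁ : 0 ≤ K₁ := by positivity
  have hK₂ : 0 ≤ K₂ := by positivity
  have hΛB : 0 ≤ Λ * B := mul_nonneg hΛ0 hB
  refine ⟨B + Λ * B + K₁ + K₂, by positivity, fun c p hp q hq' hq s hs hs1 => ?_⟩
  set C := B + Λ * B + K₁ + K₂
  have hp' := hsub hp
  set x := A.psi c p
  set y := A.psi c q
  have hxX : x ∈ A.X := A.psi_mem c p hp'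
  have hyX : y ∈ A.X := A.psi_mem c q hq
  have hR : 0 < rsX s x y := rsX_pos hs x y
  have hrR : ‖x - y‖ ≤ rsX s x y := le_rsX s x y
  have hw0 : ‖A.dmat c q *ᵥ (p - q) - (x - y)‖ ≤ G * ‖x - y‖ ^ 2 := by
    rw [norm_sub_rev]; exact (hgeo c p hp q hq').1
  obtain ⟨-, hdd, hdudd, hanti, hline, hduline⟩ := hcore (pd2 hJ c c p hq s) (p - q) ‖x - y‖
    (Or.inl hs.ne') (expansion_mono (hexp c p hp q hq' hq s) (min_le_left _ _) le_rfl)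
  exact
    { dd := fun a b ha hb => by
        refine (hdd _ _).trans (div_le_div_of_nonneg_right ?_ (pow_pos hR 2).le)
        rw [norm_snd_pair, norm_snd_pair]
        calc B₀ * ‖a‖ * ‖b‖ ≤ B * ‖a‖ * ‖b‖ := by gcongr
          _ ≤ B * 1 * 1 := by gcongr
          _ ≤ C := by linarith
      anti := fun a b ha hb => by
        refine (hanti a b).trans (div_le_div_of_nonneg_right ?_ hR.le)
        calc B₀ * ‖a‖ * ‖b‖ ≤ B * ‖a‖ * ‖b‖ := by gcongr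
          _ ≤ B * 1 * 1 := by gcongr
          _ ≤ C := by linarith
      line := fun u hu => (near_line hJ hB hΛ0 hG hM hm hD0 hL hoff hq hR hrR
        (hrR.trans (hrs x hxX y hyX s hs.le hs1)) (hlow x hxX y hyX s) hw0
        (fun l hl => (hline l hl).trans (div_le_div_of_nonneg_right hBB hR.le)) hu).trans
        (div_le_div_of_nonneg_right (by linarith) hR.le)
      dudd := fun w hw hw1 a b ha hb => by
        refine (hdudd _ _ _).trans (div_le_div_of_nonneg_right ?_ (pow_pos hR 3).le)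
        rw [norm_snd_pair, norm_snd_pair, norm_fst_pair]
        calc B₀ * ‖A.L c *ᵥ w‖ * ‖a‖ * ‖b‖ ≤ B * ‖A.L c *ᵥ w‖ * ‖a‖ * ‖b‖ := by gcongr
          _ ≤ B * Λ * 1 * 1 := by
              gcongr; exact (hL c w).trans (mul_le_of_le_one_right hΛ0 (norm_le_one_of_dot hw1))
          _ ≤ C := by linarith
      duline := fun w hw hw1 u hu => (near_duline hJ hB hΛ hG hM hL hoff hp' hq hR hrR hw0
        (hgeo c p hp q hq').2 (fun l v hl hv => (hduline l v ((min_le_right _ _).trans hl.ge)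
          hl.le hv).trans (mul_le_mul_of_nonneg_right hBB (by positivity))) hw hw1 hu).trans
        (mul_le_mul_of_nonneg_right (by linarith) (by positivity)) }

end Atlas

end Vale.Agent.P204.General
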