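import Mathlib
import Vale.Agent.P204.General.Test.Estimates

/-!
# P204 on a closed four-manifold: the estimates away from the diagonal, and in all cases
-/

set_option maxSynthPendingDepth 3

open Matrix
open scoped ContDiff

namespace Vale.Agent.P204.General

open Vale.Agent.P204.Torus Vale.Agent.P204.Core

variable {N K : ℕ}

namespace Atlas

variable {A : Atlas N K} {J : Amb N → MN N} (hJ : IsACS A J)

theorem exists_pairBound : ∃ B : ℝ, 1 ≤ B ∧ ∀ (e c : Fin K),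
    ∀ p ∈ Metric.closedBall (0 : Pt) (1 / 2), ∀ q ∈ Metric.closedBall (0 : Pt) (1 / 2),
    ∀ (hq : q ∈ box) (s m : ℝ), 0 < m → m ≤ A.q0 J (A.psi e p) (A.psi c q) + s ^ 2 →
      (pd2 hJ e c p hq s).Bound B m := by
  have hsub : Metric.closedBall (0 : Pt) (1 / 2) ×ˢ Metric.closedBall (0 : Pt) (1 / 2) ⊆
      box ×ˢ box := Set.prod_mono closedBall_subset_box closedBall_subset_box
  have hK : IsCompact (Metric.closedBall (0 : Pt) (1 / 2) ×ˢ Metric.closedBall (0 : Pt) (1 / 2)) :=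
    (isCompact_closedBall _ _).prod (isCompact_closedBall _ _)
  have hd := fun z : Fin K × Fin K =>
    Whitney.smooth_fderiv (qPair_smooth hJ z.1 z.2) (isOpen_box.prod isOpen_box)
  choose B₁ hB₁ using fun z : Fin K × Fin K =>
    hK.exists_bound_of_continuousOn ((hd z).continuousOn.mono hsub)
  choose B₂ hB₂ using fun z : Fin K × Fin K => hK.exists_bound_of_continuousOn
    ((Whitney.smooth_fderiv (hd z) (isOpen_box.prod isOpen_box)).continuousOn.mono hsub)
  obtain ⟨c₀, C₀, hc₀, hexp⟩ := exists_expansion hJ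
  set B := 1 + |C₀| + ∑ z, |B₁ z| + ∑ z, |B₂ z| with hBdef
  have hs1 : 0 ≤ ∑ z, |B₁ z| := Finset.sum_nonneg fun z _ => abs_nonneg _
  have hs2 : 0 ≤ ∑ z, |B₂ z| := Finset.sum_nonneg fun z _ => abs_nonneg _
  have hC₀ : C₀ ≤ B := by linarith [le_abs_self C₀]
  have h34 : Metric.closedBall (0 : Pt) (1 / 2) ⊆ Metric.closedBall 0 (3 / 4) :=
    Metric.closedBall_subset_closedBall (by norm_num)
  refine ⟨B, by linarith [abs_nonneg C₀], fun e c p hp q hq hq' s m hm hlow => ?_⟩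
  have hp' := closedBall_subset_box hp
  have hE := hexp e p (h34 hp) p (h34 hp) hp' s
  have hC := hexp c q (h34 hq) q (h34 hq) hq' s
  have h1 : ‖fderiv ℝ (A.qPair J e c) (p, q)‖ ≤ B :=
    (hB₁ (e, c) (p, q) ⟨hp, hq⟩).trans (by
      linarith [le_abs_self (B₁ (e, c)), abs_nonneg C₀, Finset.single_le_sum (f := fun z => |B₁ z|)
        (fun z _ => abs_nonneg _) (Finset.mem_univ (e, c))])
  have h2 : ‖fderiv ℝ (fderiv ℝ (A.qPair J e c)) (p, q)‖ ≤ B :=
    (hB₂ (e, c) (p, q) ⟨hp, hq⟩).trans (by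
      linarith [le_abs_self (B₂ (e, c)), abs_nonneg C₀, Finset.single_le_sum (f := fun z => |B₂ z|)
        (fun z _ => abs_nonneg _) (Finset.mem_univ (e, c))])
  exact
    { one := by linarith [abs_nonneg C₀]
      pos := hm
      low := hlow
      abd := fun V => (Real.norm_eq_abs _).ge.trans
        ((fderiv ℝ (A.qPair J e c) (p, q)).le_of_opNorm_le h1 V)
      hbd := fun U V => (Real.norm_eq_abs _).ge.trans
        (((fderiv ℝ (fderiv ℝ (A.qPair J e c)) (p, q)).le_of_opNorm₂_le_of_le h2 le_rfl le_rfl))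
      jxbd := fun v => (hE.jbd v).trans (mul_le_mul_of_nonneg_right hC₀ (norm_nonneg v))
      jbd := fun v => (hC.jbd v).trans (mul_le_mul_of_nonneg_right hC₀ (norm_nonneg v))
      jdxbd := fun z v => by
        show ‖derivMat (A.jc J e) p z *ᵥ v‖ ≤ _
        rw [← jetAt_jd hJ e hp' z]
        exact (hE.jdbd z v).trans (by gcongr)
      jdbd := fun z v => (hC.jdbd z v).trans (by gcongr) }

theorem exists_farEst {δ : ℝ} (hδ : 0 < δ) : ∃ C : ℝ, 0 ≤ C ∧ ∀ (e c : Fin K),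
    ∀ p ∈ Metric.closedBall (0 : Pt) (1 / 2), ∀ q ∈ Metric.closedBall (0 : Pt) (1 / 2),
    ∀ (hq : q ∈ box) (s : ℝ), 0 < s → s ≤ 1 → δ ≤ ‖A.psi e p - A.psi c q‖ →
      PairEst hJ e c p hq s C := by
  obtain ⟨B, hB, hbd⟩ := exists_pairBound hJ
  obtain ⟨Λ, hΛ, hL⟩ := A.exists_L_bound
  obtain ⟨M, hM, hoff⟩ := exists_offX_le hJ
  obtain ⟨m₀, hm₀, hlow⟩ := exists_q0_low hJ
  obtain ⟨D, hD, hrs⟩ := A.exists_rs_le
  set m := m₀ * δ ^ 2 with hmdef
  have hm : 0 < m := by positivity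
  have hB0 : 0 ≤ B := zero_le_one.trans hB
  have hΛ0 : 0 ≤ Λ := zero_le_one.trans hΛ
  have hD0 : 0 ≤ D := zero_le_one.trans hD
  set T₁ := 2 * B ^ 2 / m + B ^ 3 / m ^ 2
  set T₂ := 3 * B ^ 3 / m ^ 2
  have hT₁ : 0 ≤ T₁ := by positivity
  have hT₂ : 0 ≤ T₂ := by positivity
  set X₁ := T₁ * (B * B + 1) with hX₁
  set X₂ := T₁ * (Λ * (B * Λ)) + 2 * ((M * D) ^ 2 + M) / m ^ 2
  set X₃ := T₂ * Λ
  set X₄ := T₂ * (Λ * (Λ * (B * Λ)))
  have h1 : 0 ≤ X₁ := by positivity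
  have h2 : 0 ≤ X₂ := by positivity
  have h3 : 0 ≤ X₃ := by positivity
  have h4 : 0 ≤ X₄ := by positivity
  have h5 : 0 ≤ T₁ * D ^ 2 := by positivity
  have h6 : 0 ≤ X₁ * D := by positivity
  have h7 : 0 ≤ X₂ * D := by positivity
  have h8 : 0 ≤ X₃ * D ^ 3 := by positivity
  have h9 : 0 ≤ X₄ * D := by positivity
  refine ⟨T₁ * D ^ 2 + X₁ * D + X₂ * D + X₃ * D ^ 3 + X₄ * D, by positivity,
    fun e c p hp q hq hq' s hs hs1 hfar => ?_⟩
  set C := T₁ * D ^ 2 + X₁ * D + X₂ * D + X₃ * D ^ 3 + X₄ * D with hC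
  set x := A.psi e p
  set y := A.psi c q
  have hxX : x ∈ A.X := A.psi_mem e p (closedBall_subset_box hp)
  have hyX : y ∈ A.X := A.psi_mem c q hq'
  have hR : 0 < rsX s x y := rsX_pos hs x y
  have hRD : rsX s x y ≤ D := hrs x hxX y hyX s hs.le hs1
  set R := rsX s x y
  have hmQ : m ≤ A.q0 J x y + s ^ 2 := le_trans
    (mul_le_mul_of_nonneg_left (pow_le_pow_left₀ hδ.le (hfar.trans (le_rsX s x y)) 2) hm₀.le)
    (hlow x hxX y hyX s)
  have hb := hbd e c p hp q hq hq' s m hm hmQ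
  have hj : ∀ a, ‖A.jc J c q *ᵥ a‖ ≤ B * ‖a‖ := fun a => hb.jbd a
  have hw : ∀ w : Amb N, w ⬝ᵥ w = 1 → ∀ d, ‖A.L d *ᵥ w‖ ≤ Λ := fun w h d =>
    (hL d w).trans (mul_le_of_le_one_right hΛ0 (norm_le_one_of_dot h))
  have hu' : ∀ u, (A.dmat c q *ᵥ u) ⬝ᵥ (A.dmat c q *ᵥ u) = 1 → ‖u‖ ≤ Λ := fun u hu => by
    have := hw _ hu c
    rwa [A.L_mulVec_dmat c hq'] at this
  have sd : ∀ a b : Pt, |(pd2 hJ e c p hq' s).dd (0, a) (0, b)| ≤ T₁ * (‖a‖ * ‖b‖) := fun a b => by
    have := hb.dd_le (0, a) (0, b)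
    rwa [norm_snd_pair, norm_snd_pair] at this
  have sw : ∀ v a b : Pt, |(pd2 hJ e c p hq' s).dudd (v, 0) (0, a) (0, b)|
      ≤ T₂ * (‖v‖ * ‖a‖ * ‖b‖) := fun v a b => by
    have := hb.dudd_le (v, 0) (0, a) (0, b)
    rwa [norm_fst_pair, norm_snd_pair, norm_snd_pair] at this
  exact
    { dd := fun a b ha hb' => by
        refine (sd a b).trans ?_
        calc T₁ * (‖a‖ * ‖b‖) ≤ T₁ * (1 * 1) := by gcongr
          _ = T₁ := by ring
          _ ≤ T₁ * D ^ 2 / R ^ 2 := const_le_div hT₁ hR hRD 2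
          _ ≤ C / R ^ 2 := div_le_div_of_nonneg_right (by linarith) (pow_pos hR 2).le
      anti := fun a b ha hb' => by
        refine (abs_sub _ _).trans ((add_le_add (sd _ _) (sd _ _)).trans ?_)
        calc T₁ * (‖A.jc J c q *ᵥ a‖ * ‖A.jc J c q *ᵥ b‖) + T₁ * (‖a‖ * ‖b‖)
            ≤ T₁ * (B * B) + T₁ * (1 * 1) := by
              gcongr
              · exact (hj a).trans (mul_le_of_le_one_right hB0 ha)
              · exact (hj b).trans (mul_le_of_le_one_right hB0 hb')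
          _ = X₁ := by rw [hX₁]; ring
          _ ≤ X₁ * D ^ 1 / R ^ 1 := const_le_div h1 hR hRD 1
          _ = X₁ * D / R := by rw [pow_one, pow_one]
          _ ≤ C / R := div_le_div_of_nonneg_right (by linarith) hR.le
      line := fun u hu => by
        set l := A.dmat c q *ᵥ u
        have hl : A.IsTan y l := A.isTan_dmat c hq' u
        obtain ⟨a1, -, a3⟩ := hoff y l hl hu (x - y) 0
        have hΦ : A.offX J y l (x - y) ≤ (M * D) ^ 2 := by
          have h := offX_nonneg hJ hl (x - y)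
          rw [← Real.sq_sqrt h]
          exact pow_le_pow_left₀ (Real.sqrt_nonneg _)
            (a1.trans (mul_le_mul_of_nonneg_left ((le_rsX s x y).trans hRD) hM)) 2
        have hg : s ^ 2 * (l ⬝ᵥ (A.gMat J y *ᵥ l)) ≤ M :=
          (mul_le_of_le_one_left (g_nonneg y l) (pow_le_one₀ hs.le hs1)).trans a3
        have hnum : 0 ≤ A.offX J y l (x - y) + s ^ 2 * (l ⬝ᵥ (A.gMat J y *ᵥ l)) :=
          add_nonneg (offX_nonneg hJ hl _) (mul_nonneg (sq_nonneg s) (g_nonneg y l))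
        refine (abs_sub _ _).trans ((add_le_add ((sd u _).trans (show _ ≤ T₁ * (Λ * (B * Λ)) from ?_))
          (show _ ≤ 2 * ((M * D) ^ 2 + M) / m ^ 2 from ?_)).trans ?_)
        · gcongr
          · exact hu' u hu
          · exact (hj u).trans (mul_le_mul_of_nonneg_left (hu' u hu) hB0)
        · rw [abs_div, abs_mul, abs_two, abs_of_nonneg hnum,
            abs_of_nonneg (sq_nonneg (A.q0 J x y + s ^ 2))]
          exact div_le_div₀ (by positivity)
            (mul_le_mul_of_nonneg_left (add_le_add hΦ hg) zero_le_two) (pow_pos hm 2)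
            (pow_le_pow_left₀ hm.le hmQ 2)
        · calc X₂ ≤ X₂ * D ^ 1 / R ^ 1 := const_le_div h2 hR hRD 1
            _ = X₂ * D / R := by rw [pow_one, pow_one]
            _ ≤ C / R := div_le_div_of_nonneg_right (by linarith) hR.le
      dudd := fun w _ hw1 a b ha hb' => by
        refine (sw _ a b).trans ?_
        calc T₂ * (‖A.L e *ᵥ w‖ * ‖a‖ * ‖b‖) ≤ T₂ * (Λ * 1 * 1) := by
              gcongr; exact hw w hw1 e
          _ = X₃ := by ring
          _ ≤ X₃ * D ^ 3 / R ^ 3 := const_le_div h3 hR hRD 3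
          _ ≤ C / R ^ 3 := div_le_div_of_nonneg_right (by linarith) (pow_pos hR 3).le
      duline := fun w _ hw1 u hu => by
        refine (sw _ u _).trans ?_
        calc T₂ * (‖A.L e *ᵥ w‖ * ‖u‖ * ‖A.jc J c q *ᵥ u‖) ≤ T₂ * (Λ * Λ * (B * Λ)) := by
              gcongr
              · exact hw w hw1 e
              · exact hu' u hu
              · exact (hj u).trans (mul_le_mul_of_nonneg_left (hu' u hu) hB0)
          _ = X₄ := by ring
          _ ≤ X₄ * D ^ 1 / R ^ 1 := const_le_div h4 hR hRD 1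
          _ = X₄ * D * (1 / R) := by rw [pow_one, pow_one]; ring
          _ ≤ C * (1 / R) := mul_le_mul_of_nonneg_right (by linarith) (by positivity)
          _ ≤ _ := mul_le_mul_of_nonneg_left (le_add_of_nonneg_left (by positivity)) (by positivity) }

/-- The estimates at all pairs of points, in suitable charts. -/
theorem exists_pairEst : ∃ C : ℝ, 0 ≤ C ∧ ∀ c, ∀ q ∈ Metric.closedBall (0 : Pt) (1 / 2),
    ∀ (hq : q ∈ box), ∀ x ∈ A.X, ∀ s : ℝ, 0 < s → s ≤ 1 →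
      ∃ e, ∃ p ∈ box, A.psi e p = x ∧ PairEst hJ e c p hq s C := by
  obtain ⟨δ, hδ, hfar⟩ := A.exists_far
  obtain ⟨C₁, hC₁, hn⟩ := exists_near hJ
  obtain ⟨C₂, hC₂, hf⟩ := exists_farEst hJ hδ
  refine ⟨C₁ + C₂, add_nonneg hC₁ hC₂, fun c q hq hq' x hx s hs hs1 => ?_⟩
  by_cases hxc : x ∈ A.psi c '' Metric.closedBall 0 (3 / 4)
  · obtain ⟨p, hp, rfl⟩ := hxc
    exact ⟨c, p, Metric.closedBall_subset_ball (by norm_num) hp, rfl,
      (hn c p hp q (Metric.closedBall_subset_closedBall (by norm_num) hq) hq' s hs hs1).mono hJ hs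
        (le_add_of_nonneg_right hC₂)⟩
  · obtain ⟨e, -, p, hp, rfl⟩ := A.exists_chart hx
    exact ⟨e, p, closedBall_subset_box hp, rfl,
      (hf e c p hp q hq hq' s hs hs1 (hfar c _ ⟨q, hq, rfl⟩ _ hx hxc)).mono hJ hs
        (le_add_of_nonneg_left hC₁)⟩

end Atlas

end Vale.Agent.P204.General
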