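import Mathlib
import Vale.Agent.P204.General.Stmts
import Vale.Agent.P204.General.Test.Clauses
import Vale.Agent.P204.General.Test.Far

/-!
# P204 on a closed four-manifold: proof of `TestStmt`
-/

open Matrix
open scoped ContDiff

namespace Vale.Agent.P204.General

open Vale.Agent.P204.Torus Vale.Agent.P204.Core

variable {N K : ℕ}

namespace Atlas

variable {A : Atlas N K} {J : Amb N → MN N}

theorem sqrt_sqX_le {z : Amb N} (hz : z ∈ A.X) {M : MN N} {B : ℝ} (hB : 0 ≤ B)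
    (h : ∀ c, A.chi c z ≠ 0 → ∀ i k, |A.pullAt c M (A.phi c z) i k| ≤ B) :
    Real.sqrt (A.sqX z M) ≤ 4 * B := by
  rw [Real.sqrt_le_iff]
  refine ⟨by linarith, ?_⟩
  have h2 : ∀ c, A.chi c z * sq2 (A.pullAt c M (A.phi c z)) ≤ A.chi c z * (16 * B ^ 2) := fun c => by
    rcases eq_or_ne (A.chi c z) 0 with h0 | h0
    · simp [h0]
    refine mul_le_mul_of_nonneg_left ?_ (A.chi_nonneg c z)
    have he : ∀ i k, A.pullAt c M (A.phi c z) i k ^ 2 ≤ B ^ 2 := fun i k =>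
      sq_le_sq' (abs_le.1 (h c h0 i k)).1 (abs_le.1 (h c h0 i k)).2
    calc sq2 (A.pullAt c M (A.phi c z)) ≤ ∑ _i : Fin 4, ∑ _k : Fin 4, B ^ 2 :=
          Finset.sum_le_sum fun i _ => Finset.sum_le_sum fun k _ => he i k
      _ = 16 * B ^ 2 := by simp; ring
  calc A.sqX z M ≤ ∑ c, A.chi c z * (16 * B ^ 2) := Finset.sum_le_sum fun c _ => h2 c
    _ = (4 * B) ^ 2 := by rw [← Finset.sum_mul, A.chi_sum z hz]; ring

theorem ev_conj (T M : M4) (i k : Fin 4) :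
    (Tᵀ * M * T) i k = ev M (T *ᵥ Pi.single i 1) (T *ᵥ Pi.single k 1) := by
  have h : (Tᵀ * M * T) i k = ev (Tᵀ * M * T) (Pi.single i 1) (Pi.single k 1) := by simp [ev]
  rw [h]
  simp only [ev, ← mulVec_mulVec, dotProduct_mulVec _ Tᵀ, vecMul_transpose]

theorem norm_single_one (i : Fin 4) : ‖(Pi.single i (1 : ℝ) : Pt)‖ ≤ 1 :=
  (pi_norm_le_iff_of_nonneg zero_le_one).2 fun k => by
    rcases eq_or_ne k i with h | h <;> simp [h]

variable (hJ : IsACS A J)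
include hJ

/-- The pairing with a line, read in a chart. -/
theorem line_chart (c : Fin K) {q : Pt} (hq : q ∈ box) {l : Amb N} (hl : A.IsTan (A.psi c q) l)
    (M : MN N) : l ⬝ᵥ (M *ᵥ (J (A.psi c q) *ᵥ l))
      = ev (A.pullAt c M q) (A.L c *ᵥ l) (A.jc J c q *ᵥ (A.L c *ᵥ l)) := by
  have hc : A.psi c q ∈ A.psi c '' box := ⟨q, hq, rfl⟩
  have h1 := A.tan_in_chart hl c hc
  have h2 := J_chart hJ hc (A.L c *ᵥ l)
  rw [A.phi_psi c hq] at h1 h2
  conv_lhs => rw [← h1]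
  rw [h2]
  simp only [ev, Atlas.pullAt, ← mulVec_mulVec, dotProduct_mulVec _ (A.dmat c q)ᵀ, vecMul_transpose]

theorem exists_q0_high : ∃ C : ℝ, 0 ≤ C ∧ ∀ x ∈ A.X, ∀ y ∈ A.X, ∀ s : ℝ,
    A.q0 J x y + s ^ 2 ≤ C * rsX s x y ^ 2 := by
  obtain ⟨m, M, hm, h⟩ := exists_q0_bounds hJ
  refine ⟨max M 1, le_trans zero_le_one (le_max_right _ _), fun x hx y hy s => ?_⟩
  rw [rsX_sq]
  nlinarith [(h x hx y hy).2, mul_le_mul_of_nonneg_right (le_max_left M 1) (sq_nonneg ‖x - y‖),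
    mul_le_mul_of_nonneg_right (le_max_right M 1) (sq_nonneg s)]

end Atlas

/-- The estimates of the test potential. -/
theorem testStmt : TestStmt := by
  intro N K A J hJ
  obtain ⟨C, hC, hest⟩ := Atlas.exists_pairEst hJ
  obtain ⟨m, hm, hlow⟩ := Atlas.exists_q0_low hJ
  obtain ⟨H, hH, hhigh⟩ := Atlas.exists_q0_high hJ
  refine ⟨m, H + 4 * C, hm, fun s hs hs1 => ?_⟩
  have hs0 : s ≠ 0 := hs.ne'
  obtain ⟨t1, t2, t3, t4, t5, t6, t7⟩ := Atlas.testClauses hJ hs0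
  refine ⟨t1, t2, t3, t4, t5, t6, t7, fun x hx y hy => ?_⟩
  have hR := rsX_pos hs x y
  have hC4 : 4 * C ≤ H + 4 * C := le_add_of_nonneg_left hH
  have hCH : C ≤ H + 4 * C := by linarith
  refine ⟨hlow x hx y hy s,
    (hhigh x hx y hy s).trans (mul_le_mul_of_nonneg_right (le_add_of_nonneg_right (by linarith))
      (sq_nonneg _)), ?_, ?_, ?_, ?_⟩
  · refine (Atlas.sqrt_sqX_le hy (B := C / rsX s x y ^ 2) (by positivity) fun c hc i k => ?_).trans ?_
    · obtain ⟨q, hq, rfl⟩ := A.chi_supp c y hy hc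
      have hq' := closedBall_subset_box hq
      obtain ⟨e, p, hp, rfl, hE⟩ := hest c q hq hq' x hx s hs hs1
      rw [A.phi_psi c hq', Atlas.pullAt_ddPot_dd hJ hs0 e c hp hq' (Atlas.jetAt hJ c hq') rfl
        (Atlas.jetAt_jd hJ c hq')]
      exact hE.dd _ _ (Atlas.norm_single_one i) (Atlas.norm_single_one k)
    · rw [← mul_div_assoc]; gcongr
  · refine (Atlas.sqrt_sqX_le hy (B := C / rsX s x y) (by positivity) fun c hc i k => ?_).trans ?_
    · rw [Atlas.pull_antiX hJ hy hc]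
      obtain ⟨q, hq, rfl⟩ := A.chi_supp c y hy hc
      have hq' := closedBall_subset_box hq
      obtain ⟨e, p, hp, rfl, hE⟩ := hest c q hq hq' x hx s hs hs1
      rw [A.phi_psi c hq']
      have hM := Atlas.pullAt_ddPot_dd hJ hs0 e c hp hq' (Atlas.jetAt hJ c hq') rfl
        (Atlas.jetAt_jd hJ c hq')
      simp only [antiP, Matrix.smul_apply, Matrix.sub_apply, smul_eq_mul, Atlas.ev_conj]
      rw [ev_dd _ hM, hM i k]
      have h := hE.anti _ _ (Atlas.norm_single_one i) (Atlas.norm_single_one k)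
      rw [abs_mul, abs_of_pos (by norm_num : (0 : ℝ) < 2⁻¹), abs_sub_comm]
      have h0 := abs_nonneg ((Atlas.pd2 hJ e c p hq' s).dd (0, A.jc J c q *ᵥ Pi.single i 1)
          (0, A.jc J c q *ᵥ Pi.single k 1)
        - (Atlas.pd2 hJ e c p hq' s).dd (0, Pi.single i 1) (0, Pi.single k 1))
      simp only [Atlas.pd2] at h h0
      linarith
    · rw [← mul_div_assoc]; gcongr
  · intro l hl hl1
    obtain ⟨c, hc, -⟩ := A.exists_chart hy
    obtain ⟨q, hq, rfl⟩ := A.chi_supp c y hy hc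
    have hq' := closedBall_subset_box hq
    obtain ⟨e, p, hp, rfl, hE⟩ := hest c q hq hq' x hx s hs hs1
    have hu := A.tan_in_chart hl c ⟨q, hq', rfl⟩
    rw [A.phi_psi c hq'] at hu
    rw [Atlas.line_chart hJ c hq' hl, ev_dd _ (Atlas.pullAt_ddPot_dd hJ hs0 e c hp hq'
      (Atlas.jetAt hJ c hq') rfl (Atlas.jetAt_jd hJ c hq'))]
    have h := hE.line (A.L c *ᵥ l) (by rw [hu]; exact hl1)
    simp only [hu] at h
    exact h.trans (by gcongr)
  · intro c₀ p₀ hp₀ hpx v hv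
    have hw : A.IsTan x (A.dmat c₀ p₀ *ᵥ v) := hpx ▸ A.isTan_dmat c₀ hp₀ v
    refine Atlas.exists_rest hJ hs0 c₀ hp₀ v (P := fun M z =>
      Real.sqrt (A.sqX z M) ≤ (H + 4 * C) / rsX s x z ^ 3 ∧
      ∀ l, A.IsTan z l → l ⬝ᵥ l = 1 →
        |l ⬝ᵥ (M *ᵥ (J z *ᵥ l))| ≤ (H + 4 * C) * (Real.sqrt (A.offX J z l (x - z))
            * Real.sqrt (A.offX J z l (A.dmat c₀ p₀ *ᵥ v)) / rsX s x z ^ 4
          + Real.sqrt (A.offX J z l (x - z)) / rsX s x z ^ 3
          + Real.sqrt (A.offX J z l (A.dmat c₀ p₀ *ᵥ v)) / rsX s x z ^ 2 + 1 / rsX s x z))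
      fun z hz => ?_
    have hRz := rsX_pos hs x z
    have key : ∀ c q, q ∈ Metric.closedBall (0 : Pt) (1 / 2) → ∀ (hq' : q ∈ box), ∃ e p,
        A.psi e p = x ∧ Atlas.PairEst hJ e c p hq' s C ∧
        ∀ i k, A.pullAt c (A.restM J s c₀ p₀ v (A.psi c q)) q i k
          = (Atlas.pd2 hJ e c p hq' s).dudd (A.L e *ᵥ (A.dmat c₀ p₀ *ᵥ v), 0)
              (0, Pi.single i 1) (0, Pi.single k 1) := by
      intro c q hq hq'
      obtain ⟨e, p, hp, hpe, hE⟩ := hest c q hq hq' x hx s hs hs1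
      refine ⟨e, p, hpe, hE, fun i k => ?_⟩
      have hmem : A.psi c₀ p₀ ∈ A.psi e '' box := ⟨p, hp, hpe.trans hpx.symm⟩
      have htr : A.trans e c₀ p₀ = p := by
        rw [Atlas.trans, hpx, ← hpe, A.phi_psi e hp]
      rw [Atlas.pullAt_restM hJ hs0 e c₀ c hp₀ hmem hq' (Atlas.jetAt hJ c hq') rfl
        (Atlas.jetAt_jd hJ c hq'), htr, ← mulVec_mulVec]
      rfl
    refine ⟨(Atlas.sqrt_sqX_le hz (B := C / rsX s x z ^ 3) (by positivity) fun c hc i k => ?_).trans ?_,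
      fun l hl hl1 => ?_⟩
    · obtain ⟨q, hq, rfl⟩ := A.chi_supp c z hz hc
      have hq' := closedBall_subset_box hq
      obtain ⟨e, p, hpe, hE, hM⟩ := key c q hq hq'
      rw [A.phi_psi c hq', hM]
      subst hpe
      exact hE.dudd _ hw hv _ _ (Atlas.norm_single_one i) (Atlas.norm_single_one k)
    · rw [← mul_div_assoc]; gcongr
    · obtain ⟨c, hc, -⟩ := A.exists_chart hz
      obtain ⟨q, hq, rfl⟩ := A.chi_supp c z hz hc
      have hq' := closedBall_subset_box hq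
      obtain ⟨e, p, hpe, hE, hM⟩ := key c q hq hq'
      have hu := A.tan_in_chart hl c ⟨q, hq', rfl⟩
      rw [A.phi_psi c hq'] at hu
      rw [Atlas.line_chart hJ c hq' hl, ev_dudd _ _ hM]
      subst hpe
      have h := hE.duline _ hw hv (A.L c *ᵥ l) (by rw [hu]; exact hl1)
      simp only [hu] at h
      exact h.trans (mul_le_mul_of_nonneg_right hCH (by positivity))

end Vale.Agent.P204.General
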